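import Vale.Agent.Lib.P110.Fejer

/-! Counting pairs (arc, window) such that the group delay on the arc meets the window. -/

namespace Vale.Agent.Lib.P110

open Finset

/-- Increments of the discrete phase derivative, truncated at the end of the period. -/
noncomputable def gg (Q : ℕ) (b : ℕ → ℝ) (u : ℕ) : ℝ :=
  if u + 1 < Q then |kk Q b (u + 1) - kk Q b u| else 0

theorem gg_nonneg (Q : ℕ) (b : ℕ → ℝ) (u : ℕ) : 0 ≤ gg Q b u := by
  unfold gg
  split_ifs
  · exact abs_nonneg _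
  · exact le_rfl

/-- Variation of the phase derivative over an arc. -/
noncomputable def varc (Q A : ℕ) (b : ℕ → ℝ) (i : ℕ) : ℝ :=
  ∑ u ∈ Ico (i * A) ((i + 1) * A), gg Q b u

theorem varc_nonneg (Q A : ℕ) (b : ℕ → ℝ) (i : ℕ) : 0 ≤ varc Q A b i :=
  Finset.sum_nonneg fun _ _ => gg_nonneg _ _ _

theorem sum_arcs (f : ℕ → ℝ) (A R : ℕ) :
    ∑ i ∈ range R, ∑ u ∈ Ico (i * A) ((i + 1) * A), f u = ∑ u ∈ range (R * A), f u := by
  induction R with
  | zero => simp
  | succ R ih =>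
    rw [Finset.sum_range_succ, ih, Finset.range_eq_Ico, Finset.range_eq_Ico]
    exact Finset.sum_Ico_consecutive f (Nat.zero_le _) (Nat.mul_le_mul_right _ (Nat.le_succ _))

theorem sum_varc_le {Q R A : ℕ} (hQ : Q = R * A) {b : ℕ → ℝ} {V : ℝ}
    (hV : ∑ u ∈ range (Q - 1), |kk Q b (u + 1) - kk Q b u| ≤ V) :
    ∑ i ∈ range R, varc Q A b i ≤ V := by
  classical
  unfold varc
  rw [sum_arcs, ← hQ]
  refine le_trans ?_ hV
  unfold gg
  rw [← Finset.sum_filter]
  apply Finset.sum_le_sum_of_subset_of_nonneg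
  · intro u hu
    have := (mem_filter.1 hu).2
    rw [mem_range]
    omega
  · intro _ _ _
    exact abs_nonneg _

theorem kt_arc_close {Q A i s : ℕ} (b : ℕ → ℝ) (hs1 : i * A ≤ s) (hs2 : s < (i + 1) * A)
    (hsQ : s < Q) : |((kt Q b s : ℤ) : ℝ) - (kt Q b (i * A) : ℤ)| ≤ varc Q A b i + 1 := by
  have hr1 : |kk Q b s - kt Q b s| ≤ 1 / 2 := abs_sub_round _
  have hr2 : |kk Q b (i * A) - kt Q b (i * A)| ≤ 1 / 2 := abs_sub_round _
  have hk : |kk Q b s - kk Q b (i * A)| ≤ varc Q A b i := by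
    refine (kk_diff_le Q b hs1).trans ?_
    unfold varc
    have h1 : ∀ w ∈ Ico (i * A) s, |kk Q b (w + 1) - kk Q b w| = gg Q b w := by
      intro w hw
      have := (mem_Ico.1 hw).2
      unfold gg
      rw [if_pos (by omega)]
    rw [Finset.sum_congr rfl h1]
    apply Finset.sum_le_sum_of_subset_of_nonneg
    · exact Finset.Ico_subset_Ico le_rfl hs2.le
    · intro _ _ _
      exact gg_nonneg _ _ _
  rw [abs_le] at hr1 hr2 hk ⊢
  constructor <;> linarith [hr1.1, hr1.2, hr2.1, hr2.2, hk.1, hk.2]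

open Classical in
/-- The arcs on which the group delay meets the window number `t`. -/
noncomputable def act (Q L A : ℕ) (kt' : ℕ → ℤ) (t : ℕ) : Finset ℕ :=
  ((range Q).filter (fun s => T Q L (kt' s + (L : ℤ) * t) ≠ 0)).image (fun s => s / A)

theorem mem_act {Q L A : ℕ} {kt' : ℕ → ℤ} {t i : ℕ} :
    i ∈ act Q L A kt' t ↔ ∃ s < Q, T Q L (kt' s + (L : ℤ) * t) ≠ 0 ∧ s / A = i := by
  classical
  unfold act
  simp only [mem_image, mem_filter, mem_range]
  constructor
  · rintro ⟨s, ⟨h1, h2⟩, h3⟩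
    exact ⟨s, h1, h2, h3⟩
  · rintro ⟨s, h1, h2, h3⟩
    exact ⟨s, ⟨h1, h2⟩, h3⟩

/-- For each arc, few windows are met. -/
theorem count_arc {Q L W A : ℕ} (hL0 : 0 < L) (hW0 : 0 < W) (hA0 : 0 < A)
    (hLW : Q = L * W) (b : ℕ → ℝ) (i : ℕ) :
    (((range W).filter (fun t => i ∈ act Q L A (kt Q b) t)).card : ℝ) ≤
      2 * ((L : ℝ) + varc Q A b i + 1) / L + 1 := by
  classical
  have hLr : (0 : ℝ) < L := by exact_mod_cast hL0
  have hV := varc_nonneg Q A b i
  set x : ℤ := kt Q b (i * A) with hx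
  set B : ℝ := (L : ℝ) + varc Q A b i + 1 with hB
  have hB0 : 0 < B := by positivity
  set lo : ℤ := ⌈(-(x : ℝ) - B) / L⌉ with hlo
  set hi : ℤ := ⌊(B - (x : ℝ)) / L⌋ with hhi
  have hsub : (range W).filter (fun t => i ∈ act Q L A (kt Q b) t) ⊆
      (Icc lo hi).image (fun t' : ℤ => (t' % (W : ℤ)).toNat) := by
    intro t ht
    obtain ⟨htW, hact⟩ := mem_filter.1 ht
    rw [mem_range] at htW
    obtain ⟨s, hsQ, hT, hsi⟩ := mem_act.1 hact
    obtain ⟨m, hm⟩ := T_support hT
    set t' : ℤ := (t : ℤ) - (W : ℤ) * m with ht'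
    have heq : kt Q b s + (L : ℤ) * t - (Q : ℤ) * m = kt Q b s + (L : ℤ) * t' := by
      rw [ht', hLW]
      push_cast
      ring
    rw [heq] at hm
    have hmr : |((kt Q b s : ℤ) : ℝ) + (L : ℝ) * (t' : ℝ)| < L := by
      exact_mod_cast hm
    have hs1 : i * A ≤ s := by
      rw [← hsi]
      exact Nat.div_mul_le_self s A
    have hs2 : s < (i + 1) * A := by
      rw [← hsi, mul_comm]
      exact Nat.lt_mul_div_succ s hA0
    have hclose := kt_arc_close (Q := Q) (A := A) b hs1 hs2 hsQ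
    rw [← hx] at hclose
    have h1 := abs_lt.1 hmr
    have h2 := abs_le.1 hclose
    have hlow : -B < (x : ℝ) + (L : ℝ) * (t' : ℝ) := by
      rw [hB]
      linarith [h1.1, h2.2]
    have hup : (x : ℝ) + (L : ℝ) * (t' : ℝ) < B := by
      rw [hB]
      linarith [h1.2, h2.1]
    rw [mem_image]
    refine ⟨t', ?_, ?_⟩
    · rw [mem_Icc]
      constructor
      · apply Int.ceil_le.2
        rw [div_le_iff₀ hLr]
        nlinarith
      · apply Int.le_floor.2
        rw [le_div_iff₀ hLr]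
        nlinarith
    · have hWpos : (0 : ℤ) < W := by exact_mod_cast hW0
      have h3 : t' % (W : ℤ) = t := by
        rw [ht', Int.sub_mul_emod_self_left]
        apply Int.emod_eq_of_lt (by positivity)
        exact_mod_cast htW
      rw [h3]
      simp
  have hcard : ((range W).filter (fun t => i ∈ act Q L A (kt Q b) t)).card ≤ (hi + 1 - lo).toNat := by
    calc _ ≤ ((Icc lo hi).image (fun t' : ℤ => (t' % (W : ℤ)).toNat)).card :=
          Finset.card_le_card hsub
      _ ≤ (Icc lo hi).card := Finset.card_image_le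
      _ = (hi + 1 - lo).toNat := Int.card_Icc _ _
  have hcardr : (((range W).filter (fun t => i ∈ act Q L A (kt Q b) t)).card : ℝ) ≤
      ((hi + 1 - lo).toNat : ℝ) := by
    exact_mod_cast hcard
  refine hcardr.trans ?_
  have hfl : (hi : ℝ) ≤ (B - (x : ℝ)) / L := Int.floor_le _
  have hce : (-(x : ℝ) - B) / L ≤ (lo : ℝ) := Int.le_ceil _
  have hRHS : (2 * B / L + 1 : ℝ) = (B - (x : ℝ)) / L - (-(x : ℝ) - B) / L + 1 := by
    field_simp
    ring
  by_cases hnn : 0 ≤ hi + 1 - lo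
  · have hcast : ((hi + 1 - lo).toNat : ℝ) = (hi : ℝ) + 1 - lo := by
      have h4 : (((hi + 1 - lo).toNat : ℤ) : ℝ) = ((hi + 1 - lo : ℤ) : ℝ) := by
        rw [Int.toNat_of_nonneg hnn]
      push_cast at h4
      exact h4
    rw [hcast, hRHS]
    linarith
  · have h0 : (hi + 1 - lo).toNat = 0 := Int.toNat_of_nonpos (by omega)
    rw [h0]
    push_cast
    positivity

/-- The total number of incidences. -/
theorem sum_act_le {Q L W R A : ℕ} (hL0 : 0 < L) (hW0 : 0 < W) (hA0 : 0 < A)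
    (hLW : Q = L * W) (hRA : Q = R * A) (b : ℕ → ℝ) {V : ℝ}
    (hV : ∑ u ∈ range (Q - 1), |kk Q b (u + 1) - kk Q b u| ≤ V) :
    ∑ t ∈ range W, ((act Q L A (kt Q b) t).card : ℝ) ≤
      3 * R + 2 * R / L + 2 * V / L := by
  classical
  have hLr : (0 : ℝ) < L := by exact_mod_cast hL0
  have h1 : ∀ t ∈ range W, ((act Q L A (kt Q b) t).card : ℝ) =
      ∑ i ∈ range R, (if i ∈ act Q L A (kt Q b) t then (1 : ℝ) else 0) := by
    intro t _
    rw [← Finset.sum_filter]
    simp only [sum_const, nsmul_eq_mul, mul_one]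
    congr 2
    ext i
    simp only [mem_filter, mem_range]
    constructor
    · intro hi
      refine ⟨?_, hi⟩
      obtain ⟨s, hsQ, _, hsi⟩ := mem_act.1 hi
      rw [← hsi]
      apply Nat.div_lt_of_lt_mul
      rw [mul_comm, ← hRA]
      exact hsQ
    · exact fun h => h.2
  rw [Finset.sum_congr rfl h1, Finset.sum_comm]
  have h2 : ∀ i ∈ range R, ∑ t ∈ range W, (if i ∈ act Q L A (kt Q b) t then (1 : ℝ) else 0) ≤
      2 * ((L : ℝ) + varc Q A b i + 1) / L + 1 := by
    intro i _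
    rw [← Finset.sum_filter]
    simp only [sum_const, nsmul_eq_mul, mul_one]
    exact count_arc hL0 hW0 hA0 hLW b i
  refine (Finset.sum_le_sum h2).trans ?_
  have h3 : ∀ i ∈ range R, 2 * ((L : ℝ) + varc Q A b i + 1) / L + 1 =
      (3 + 2 / L) + (2 / L) * varc Q A b i := by
    intro i _
    field_simp
    ring
  rw [Finset.sum_congr rfl h3, Finset.sum_add_distrib, ← Finset.mul_sum]
  simp only [sum_const, card_range, nsmul_eq_mul]
  have h4 := sum_varc_le hRA hV
  have h5 : (2 / (L : ℝ)) * ∑ i ∈ range R, varc Q A b i ≤ (2 / (L : ℝ)) * V :=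
    mul_le_mul_of_nonneg_left h4 (by positivity)
  have h6 : 3 * (R : ℝ) + 2 * R / L + 2 * V / L = (R : ℝ) * (3 + 2 / L) + (2 / (L : ℝ)) * V := by
    field_simp
  rw [h6]
  linarith

end Vale.Agent.Lib.P110
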