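import Vale.Agent.Lib.P110.Window

/-! Windowed polynomials and the local correlation identity. -/

namespace Vale.Agent.Lib.P110

open Finset
open scoped ComplexConjugate

/-- The polynomial sampled on the grid of `Q` points. -/
noncomputable def F (a : ℕ → ℝ) (N Q : ℕ) (n : ℤ) : ℂ :=
  ∑ k ∈ range N, (a k : ℂ) * E Q ((k : ℤ) * n)

/-- The windowed polynomial. -/
noncomputable def B (a : ℕ → ℝ) (N Q L : ℕ) (τ s : ℤ) : ℂ :=
  ∑ k ∈ range N, ((T Q L ((k : ℤ) - τ) : ℝ) : ℂ) * ((a k : ℂ) * E Q ((k : ℤ) * s))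

/-- The windowed correlation at lag `j`. -/
noncomputable def Cor (a : ℕ → ℝ) (N Q L : ℕ) (j : ℕ) (τ : ℤ) : ℝ :=
  ∑ k ∈ range N, T Q L ((k : ℤ) - τ) * (a k * (if k + j < N then a (k + j) else 0))

/-- The real cosine. -/
noncomputable def co (Q : ℕ) (n : ℤ) : ℝ := Real.cos (2 * Real.pi * n / Q)

theorem E_re (Q : ℕ) (n : ℤ) : (E Q n).re = co Q n := by
  rw [E_eq_exp_real, Complex.exp_ofReal_mul_I_re]
  rfl

theorem B_eq {Q L : ℕ} (a : ℕ → ℝ) (N : ℕ) (hQ : 0 < Q) (hL0 : 0 < L) (τ s : ℤ) :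
    B a N Q L τ s = (1 / (Q : ℂ)) *
      ∑ i ∈ range Q, ((Phi Q L (i : ℤ) : ℝ) : ℂ) * (E Q (-τ * i) * F a N Q (s + i)) := by
  unfold B F
  simp only [T_fourier hQ hL0]
  simp only [Finset.mul_sum, Finset.sum_mul]
  rw [Finset.sum_comm]
  apply Finset.sum_congr rfl
  intro i _
  apply Finset.sum_congr rfl
  intro k _
  have h : E Q (((k : ℤ) - τ) * i) * E Q ((k : ℤ) * s) = E Q (-τ * i) * E Q ((k : ℤ) * (s + i)) := by
    rw [← E_add, ← E_add]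
    congr 1
    ring
  linear_combination (1 / (Q : ℂ)) * ((Phi Q L (i : ℤ) : ℝ) : ℂ) * (a k : ℂ) * h

theorem ind_of_abs_lt {Q : ℕ} {x : ℤ} (hx : |x| < Q) : ind Q x = if x = 0 then 1 else 0 := by
  unfold ind
  by_cases h0 : x = 0
  · simp [h0]
  · have : ¬ (Q : ℤ) ∣ x := by
      intro hd
      have := Int.le_of_dvd (abs_pos.2 h0) ((dvd_abs _ _).2 hd)
      omega
    simp [h0, this]

theorem inner_corr {Q N j k : ℕ} (a : ℕ → ℝ) (hNj : N + j ≤ Q) (hk : k < N) :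
    ∑ k' ∈ range N, a k' * ind Q ((k : ℤ) - k' + j) = if k + j < N then a (k + j) else 0 := by
  classical
  have h1 : ∀ k' ∈ range N, a k' * ind Q ((k : ℤ) - k' + j) = if k' = k + j then a k' else 0 := by
    intro k' hk'
    have hk'' : k' < N := mem_range.1 hk'
    have habs : |(k : ℤ) - k' + j| < Q := by
      rw [abs_lt]
      constructor <;> omega
    rw [ind_of_abs_lt habs]
    by_cases h : k' = k + j
    · have : (k : ℤ) - k' + j = 0 := by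
        subst h
        push_cast
        ring
      simp [h]
    · have : (k : ℤ) - k' + j ≠ 0 := by omega
      simp [h, this]
  rw [Finset.sum_congr rfl h1, Finset.sum_ite_eq' (range N) (k + j) a]
  simp

theorem Cor_eq {Q L N j : ℕ} (a : ℕ → ℝ) (hQ : 0 < Q) (hNj : N + j ≤ Q) (τ : ℤ) :
    ((Cor a N Q L j τ : ℝ) : ℂ) = (1 / (Q : ℂ)) *
      ∑ s ∈ range Q, B a N Q L τ (s : ℤ) * conj (F a N Q (s : ℤ)) * E Q ((j : ℤ) * s) := by
  have hQ' : (Q : ℂ) ≠ 0 := by exact_mod_cast hQ.ne'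
  have hs : ∀ s : ℕ, B a N Q L τ (s : ℤ) * conj (F a N Q (s : ℤ)) * E Q ((j : ℤ) * s) =
      ∑ k ∈ range N, ∑ k' ∈ range N,
        ((T Q L ((k : ℤ) - τ) : ℝ) : ℂ) * (a k : ℂ) * (a k' : ℂ) * E Q (((k : ℤ) - k' + j) * s) := by
    intro s
    unfold B F
    rw [map_sum, Finset.sum_mul_sum, Finset.sum_mul]
    apply Finset.sum_congr rfl
    intro k _
    rw [Finset.sum_mul]
    apply Finset.sum_congr rfl
    intro k' _
    rw [map_mul, conj_E, Complex.conj_ofReal]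
    have h : E Q ((k : ℤ) * s) * E Q (-((k' : ℤ) * s)) * E Q ((j : ℤ) * s)
        = E Q (((k : ℤ) - k' + j) * s) := by
      rw [← E_add, ← E_add]
      congr 1
      ring
    linear_combination ((T Q L ((k : ℤ) - τ) : ℝ) : ℂ) * (a k : ℂ) * (a k' : ℂ) * h
  simp only [hs]
  rw [Finset.sum_comm]
  have hinner : ∀ k ∈ range N, ∑ s ∈ range Q, ∑ k' ∈ range N,
        ((T Q L ((k : ℤ) - τ) : ℝ) : ℂ) * (a k : ℂ) * (a k' : ℂ) * E Q (((k : ℤ) - k' + j) * s)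
      = (Q : ℂ) * ((T Q L ((k : ℤ) - τ) * (a k * (if k + j < N then a (k + j) else 0)) : ℝ) : ℂ) := by
    intro k hk
    rw [Finset.sum_comm]
    rw [← inner_corr (Q := Q) a hNj (mem_range.1 hk)]
    push_cast
    rw [Finset.mul_sum, Finset.mul_sum, Finset.mul_sum]
    apply Finset.sum_congr rfl
    intro k' _
    have h := orth hQ ((k : ℤ) - k' + j)
    simp only [← mul_assoc] at h ⊢
    rw [← Finset.mul_sum, h]
    ring
  rw [Finset.sum_congr rfl hinner, ← Finset.mul_sum]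
  unfold Cor
  push_cast
  field_simp

/-- The defect of the windowed polynomial from the local picture. -/
noncomputable def Dft (a : ℕ → ℝ) (N Q L : ℕ) (kt : ℕ → ℤ) (τ : ℤ) (s : ℕ) : ℂ :=
  B a N Q L τ (s : ℤ) - F a N Q (s : ℤ) * ((T Q L (kt s - τ) : ℝ) : ℂ)

theorem Dft_eq {Q L : ℕ} (a : ℕ → ℝ) (N : ℕ) (hQ : 0 < Q) (hL0 : 0 < L) (kt : ℕ → ℤ) (τ : ℤ)
    (s : ℕ) :
    Dft a N Q L kt τ s = (1 / (Q : ℂ)) * ∑ i ∈ range Q, ((Phi Q L (i : ℤ) : ℝ) : ℂ) *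
      (E Q (-τ * i) * (F a N Q ((s : ℤ) + i) - F a N Q (s : ℤ) * E Q (kt s * i))) := by
  unfold Dft
  rw [B_eq a N hQ hL0, T_fourier hQ hL0]
  rw [mul_left_comm (F a N Q (s : ℤ)), Finset.mul_sum (a := F a N Q (s : ℤ)), ← mul_sub,
    ← Finset.sum_sub_distrib]
  congr 1
  apply Finset.sum_congr rfl
  intro i _
  have h : E Q ((kt s - τ) * i) = E Q (-τ * i) * E Q (kt s * i) := by
    rw [← E_add]
    congr 1
    ring
  rw [h]
  ring

/-- The average size of the defect, controlled by local behaviour near each sample point. -/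
theorem sum_norm_Dft_le {Q L : ℕ} (a : ℕ → ℝ) (N : ℕ) (hQ : 0 < Q) (hL0 : 0 < L) (hL : L ≤ Q)
    (kt : ℕ → ℤ) (τ : ℤ) (Cb : ℝ) (l0 : ℕ) (ρ : ℕ → ℝ)
    (hCb : ∀ n : ℤ, ‖F a N Q n‖ ≤ Cb)
    (hρ : ∀ s < Q, ∀ i < Q, i ∉ Ioo l0 (Q - l0) →
      ‖F a N Q ((s : ℤ) + i) - F a N Q (s : ℤ) * E Q (kt s * i)‖ ≤ ρ s)
    (hρ0 : ∀ s < Q, 0 ≤ ρ s) :
    ∑ s ∈ range Q, ‖Dft a N Q L kt τ s‖ ≤
      ∑ s ∈ range Q, ρ s + 2 * Cb * (((Q : ℝ) ^ 2 / L) / (l0 + 1)) := by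
  classical
  have hQr : (0 : ℝ) < Q := by exact_mod_cast hQ
  have hCb0 : 0 ≤ Cb := le_trans (norm_nonneg _) (hCb 0)
  -- the bracket
  set br : ℕ → ℕ → ℝ := fun s i =>
    ‖F a N Q ((s : ℤ) + i) - F a N Q (s : ℤ) * E Q (kt s * i)‖ with hbr
  have hbr0 : ∀ s i, 0 ≤ br s i := fun s i => norm_nonneg _
  have hbrb : ∀ s i, br s i ≤ 2 * Cb := by
    intro s i
    simp only [hbr]
    calc ‖F a N Q ((s : ℤ) + i) - F a N Q (s : ℤ) * E Q (kt s * i)‖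
        ≤ ‖F a N Q ((s : ℤ) + i)‖ + ‖F a N Q (s : ℤ) * E Q (kt s * i)‖ := norm_sub_le _ _
      _ ≤ Cb + Cb := by
          apply add_le_add (hCb _)
          rw [norm_mul, norm_E, mul_one]
          exact hCb _
      _ = 2 * Cb := by ring
  have hpt : ∀ s ∈ range Q, ‖Dft a N Q L kt τ s‖ ≤
      (1 / (Q : ℝ)) * ∑ i ∈ range Q, Phi Q L (i : ℤ) * br s i := by
    intro s _
    rw [Dft_eq a N hQ hL0]
    rw [norm_mul]
    have h1 : ‖(1 / (Q : ℂ))‖ = 1 / (Q : ℝ) := by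
      simp
    rw [h1]
    apply mul_le_mul_of_nonneg_left _ (by positivity)
    refine (norm_sum_le _ _).trans (Finset.sum_le_sum ?_)
    intro i _
    rw [norm_mul, norm_mul, norm_E, one_mul, Complex.norm_real, Real.norm_eq_abs,
      abs_of_nonneg (Phi_nonneg _ _ _)]
  have hsum : ∑ s ∈ range Q, ‖Dft a N Q L kt τ s‖ ≤
      (1 / (Q : ℝ)) * ∑ i ∈ range Q, Phi Q L (i : ℤ) * ∑ s ∈ range Q, br s i := by
    refine (Finset.sum_le_sum hpt).trans (le_of_eq ?_)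
    rw [← Finset.mul_sum, Finset.sum_comm]
    simp only [Finset.mul_sum]
  have hρsum : 0 ≤ ∑ s ∈ range Q, ρ s :=
    Finset.sum_nonneg fun s hs => hρ0 s (mem_range.1 hs)
  -- splitting near and far frequencies
  have hi : ∀ i ∈ range Q, Phi Q L (i : ℤ) * ∑ s ∈ range Q, br s i ≤
      Phi Q L (i : ℤ) * ∑ s ∈ range Q, ρ s +
        (if i ∈ Ioo l0 (Q - l0) then Phi Q L (i : ℤ) * ((Q : ℝ) * (2 * Cb)) else 0) := by
    intro i hi
    have hP := Phi_nonneg Q L (i : ℤ)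
    by_cases hin : i ∈ Ioo l0 (Q - l0)
    · rw [if_pos hin]
      have h1 : ∑ s ∈ range Q, br s i ≤ (Q : ℝ) * (2 * Cb) := by
        calc ∑ s ∈ range Q, br s i ≤ ∑ _s ∈ range Q, (2 * Cb) :=
              Finset.sum_le_sum fun s _ => hbrb s i
          _ = (Q : ℝ) * (2 * Cb) := by simp
      have h2 : 0 ≤ Phi Q L (i : ℤ) * ∑ s ∈ range Q, ρ s := mul_nonneg hP hρsum
      have h3 := mul_le_mul_of_nonneg_left h1 hP
      linarith
    · rw [if_neg hin, add_zero]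
      apply mul_le_mul_of_nonneg_left _ hP
      apply Finset.sum_le_sum
      intro s hs
      exact hρ s (mem_range.1 hs) i (mem_range.1 hi) hin
  have htail : ∑ i ∈ range Q,
      (if i ∈ Ioo l0 (Q - l0) then Phi Q L (i : ℤ) * ((Q : ℝ) * (2 * Cb)) else 0)
      ≤ (((Q : ℝ) ^ 2 / L) / (l0 + 1)) * ((Q : ℝ) * (2 * Cb)) := by
    have hsub : (range Q).filter (fun i => i ∈ Ioo l0 (Q - l0)) ⊆ Ioo l0 (Q - l0) := by
      intro i hi
      exact (mem_filter.1 hi).2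
    rw [← Finset.sum_filter]
    calc ∑ i ∈ (range Q).filter (fun i => i ∈ Ioo l0 (Q - l0)),
          Phi Q L (i : ℤ) * ((Q : ℝ) * (2 * Cb))
        ≤ ∑ i ∈ Ioo l0 (Q - l0), Phi Q L (i : ℤ) * ((Q : ℝ) * (2 * Cb)) :=
          Finset.sum_le_sum_of_subset_of_nonneg hsub (fun i _ _ =>
            mul_nonneg (Phi_nonneg _ _ _) (by positivity))
      _ = (∑ i ∈ Ioo l0 (Q - l0), Phi Q L (i : ℤ)) * ((Q : ℝ) * (2 * Cb)) := by
          rw [Finset.sum_mul]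
      _ ≤ _ := mul_le_mul_of_nonneg_right (Phi_tail hQ hL0 l0) (by positivity)
  have hmean := Phi_mean_le hQ hL0 hL
  have htotal : ∑ i ∈ range Q, Phi Q L (i : ℤ) * ∑ s ∈ range Q, br s i ≤
      (Q : ℝ) * ∑ s ∈ range Q, ρ s + (((Q : ℝ) ^ 2 / L) / (l0 + 1)) * ((Q : ℝ) * (2 * Cb)) := by
    refine (Finset.sum_le_sum hi).trans ?_
    rw [Finset.sum_add_distrib, ← Finset.sum_mul]
    exact add_le_add (mul_le_mul_of_nonneg_right hmean hρsum) htail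
  refine hsum.trans ?_
  calc (1 / (Q : ℝ)) * ∑ i ∈ range Q, Phi Q L (i : ℤ) * ∑ s ∈ range Q, br s i
      ≤ (1 / (Q : ℝ)) * ((Q : ℝ) * ∑ s ∈ range Q, ρ s +
          (((Q : ℝ) ^ 2 / L) / (l0 + 1)) * ((Q : ℝ) * (2 * Cb))) :=
        mul_le_mul_of_nonneg_left htotal (by positivity)
    _ = ∑ s ∈ range Q, ρ s + 2 * Cb * (((Q : ℝ) ^ 2 / L) / (l0 + 1)) := by
        field_simp

/-- The local correlation is computed by the spectral density of the window. -/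
theorem approx {Q L N j : ℕ} (a : ℕ → ℝ) (hQ : 0 < Q) (hL0 : 0 < L) (hL : L ≤ Q)
    (hNj : N + j ≤ Q) (kt : ℕ → ℤ) (τ : ℤ) (Cb ε Dbar : ℝ)
    (hCb : ∀ n : ℤ, ‖F a N Q n‖ ≤ Cb)
    (hflat : ∀ n : ℤ, |‖F a N Q n‖ ^ 2 - N| ≤ ε * N)
    (hDbar : ∑ s ∈ range Q, ‖Dft a N Q L kt τ s‖ ≤ Q * Dbar) :
    |Cor a N Q L j τ - (N / (Q : ℝ)) * ∑ s ∈ range Q, T Q L (kt s - τ) * co Q ((j : ℤ) * s)|
      ≤ ε * N + Cb * Dbar := by
  have hQr : (0 : ℝ) < Q := by exact_mod_cast hQ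
  have hQ' : (Q : ℂ) ≠ 0 := by exact_mod_cast hQ.ne'
  have hCb0 : 0 ≤ Cb := le_trans (norm_nonneg _) (hCb 0)
  have hN0 : (0 : ℝ) ≤ N := by positivity
  have hε0 : 0 ≤ ε * N := le_trans (abs_nonneg _) (hflat 0)
  set Z : ℂ := (1 / (Q : ℂ)) * ∑ s ∈ range Q,
      ((((‖F a N Q (s : ℤ)‖ ^ 2 - N) * T Q L (kt s - τ) : ℝ) : ℂ) * E Q ((j : ℤ) * s) +
        Dft a N Q L kt τ s * conj (F a N Q (s : ℤ)) * E Q ((j : ℤ) * s)) with hZ
  have hterm : ∀ s ∈ range Q, B a N Q L τ (s : ℤ) * conj (F a N Q (s : ℤ)) * E Q ((j : ℤ) * s) -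
      ((N * T Q L (kt s - τ) : ℝ) : ℂ) * E Q ((j : ℤ) * s) =
      ((((‖F a N Q (s : ℤ)‖ ^ 2 - N) * T Q L (kt s - τ) : ℝ) : ℂ) * E Q ((j : ℤ) * s) +
        Dft a N Q L kt τ s * conj (F a N Q (s : ℤ)) * E Q ((j : ℤ) * s)) := by
    intro s _
    unfold Dft
    have hFF : F a N Q (s : ℤ) * conj (F a N Q (s : ℤ)) = ((‖F a N Q (s : ℤ)‖ ^ 2 : ℝ) : ℂ) := by
      rw [Complex.mul_conj, Complex.normSq_eq_norm_sq]
    push_cast at hFF ⊢
    linear_combination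
      ((T Q L (kt s - τ) : ℝ) : ℂ) * E Q ((j : ℤ) * s) * hFF
  have hZ2 : Z = ((Cor a N Q L j τ : ℝ) : ℂ) -
      (1 / (Q : ℂ)) * ∑ s ∈ range Q, ((N * T Q L (kt s - τ) : ℝ) : ℂ) * E Q ((j : ℤ) * s) := by
    rw [hZ, Cor_eq a hQ hNj, ← mul_sub, ← Finset.sum_sub_distrib]
    congr 1
    exact (Finset.sum_congr rfl hterm).symm
  have hre : Z.re = Cor a N Q L j τ -
      (N / (Q : ℝ)) * ∑ s ∈ range Q, T Q L (kt s - τ) * co Q ((j : ℤ) * s) := by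
    rw [hZ2, Complex.sub_re, Complex.ofReal_re]
    congr 1
    have h1 : (1 / (Q : ℂ)) = ((1 / (Q : ℝ) : ℝ) : ℂ) := by
      push_cast
      rfl
    rw [h1, Complex.re_ofReal_mul, Complex.re_sum]
    rw [Finset.mul_sum, Finset.mul_sum]
    apply Finset.sum_congr rfl
    intro s _
    rw [Complex.re_ofReal_mul, E_re]
    field_simp
  have hnorm : ‖Z‖ ≤ ε * N + Cb * Dbar := by
    rw [hZ, norm_mul]
    have h1 : ‖(1 / (Q : ℂ))‖ = 1 / (Q : ℝ) := by simp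
    rw [h1]
    have h2 : ‖∑ s ∈ range Q,
        ((((‖F a N Q (s : ℤ)‖ ^ 2 - N) * T Q L (kt s - τ) : ℝ) : ℂ) * E Q ((j : ℤ) * s) +
          Dft a N Q L kt τ s * conj (F a N Q (s : ℤ)) * E Q ((j : ℤ) * s))‖
        ≤ ∑ s ∈ range Q, (ε * N + Cb * ‖Dft a N Q L kt τ s‖) := by
      refine (norm_sum_le _ _).trans (Finset.sum_le_sum ?_)
      intro s _
      refine (norm_add_le _ _).trans (add_le_add ?_ ?_)
      · rw [norm_mul, norm_E, mul_one, Complex.norm_real, Real.norm_eq_abs, abs_mul,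
          abs_of_nonneg (T_nonneg _ _ _)]
        have hT := T_le_one hQ hL0 hL (kt s - τ)
        have hTn := T_nonneg Q L (kt s - τ)
        calc |‖F a N Q (s : ℤ)‖ ^ 2 - N| * T Q L (kt s - τ) ≤ (ε * N) * 1 :=
              mul_le_mul (hflat _) hT hTn hε0
          _ = ε * N := mul_one _
      · rw [norm_mul, norm_E, mul_one, norm_mul, RCLike.norm_conj]
        calc ‖Dft a N Q L kt τ s‖ * ‖F a N Q (s : ℤ)‖ ≤ ‖Dft a N Q L kt τ s‖ * Cb :=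
              mul_le_mul_of_nonneg_left (hCb _) (norm_nonneg _)
          _ = Cb * ‖Dft a N Q L kt τ s‖ := mul_comm _ _
    have h3 : ∑ s ∈ range Q, (ε * N + Cb * ‖Dft a N Q L kt τ s‖) ≤
        (Q : ℝ) * (ε * N) + Cb * ((Q : ℝ) * Dbar) := by
      have h4 : ∑ s ∈ range Q, (ε * N + Cb * ‖Dft a N Q L kt τ s‖) =
          (Q : ℝ) * (ε * N) + Cb * ∑ s ∈ range Q, ‖Dft a N Q L kt τ s‖ := by
        rw [Finset.sum_add_distrib, Finset.mul_sum (a := Cb)]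
        simp
      rw [h4]
      linarith [mul_le_mul_of_nonneg_left hDbar hCb0]
    calc 1 / (Q : ℝ) * _ ≤ 1 / (Q : ℝ) * ((Q : ℝ) * (ε * N) + Cb * ((Q : ℝ) * Dbar)) :=
          mul_le_mul_of_nonneg_left (h2.trans h3) (by positivity)
      _ = ε * N + Cb * Dbar := by field_simp
  rw [← hre]
  exact (Complex.abs_re_le_norm Z).trans hnorm

end Vale.Agent.Lib.P110
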