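import Mathlib

/-! Grid characters and orthogonality on the cyclic group of order `Q`. -/

namespace Vale.Agent.Lib.P110

open Finset
open scoped ComplexConjugate

/-- The character `n ↦ exp (2 π i n / Q)`. -/
noncomputable def E (Q : ℕ) (n : ℤ) : ℂ :=
  Complex.exp (2 * Real.pi * Complex.I * n / Q)

theorem E_add (Q : ℕ) (m n : ℤ) : E Q (m + n) = E Q m * E Q n := by
  unfold E
  rw [← Complex.exp_add]
  congr 1
  push_cast
  ring

theorem E_zero (Q : ℕ) : E Q 0 = 1 := by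
  simp [E]

theorem E_eq_exp_real (Q : ℕ) (n : ℤ) :
    E Q n = Complex.exp (((2 * Real.pi * n / Q : ℝ) : ℂ) * Complex.I) := by
  unfold E
  congr 1
  push_cast
  ring

theorem norm_E (Q : ℕ) (n : ℤ) : ‖E Q n‖ = 1 := by
  rw [E_eq_exp_real, Complex.norm_exp_ofReal_mul_I]

theorem conj_E (Q : ℕ) (n : ℤ) : conj (E Q n) = E Q (-n) := by
  rw [E_eq_exp_real, E_eq_exp_real, ← Complex.exp_conj]
  congr 1
  simp only [map_mul, Complex.conj_ofReal, Complex.conj_I]
  push_cast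
  ring

theorem E_neg_mul_self (Q : ℕ) (n : ℤ) : E Q (-n) * E Q n = 1 := by
  rw [← E_add]
  simp [E_zero]

theorem E_mul_Q {Q : ℕ} (hQ : 0 < Q) (n : ℤ) : E Q ((Q : ℤ) * n) = 1 := by
  unfold E
  rw [Complex.exp_eq_one_iff]
  refine ⟨n, ?_⟩
  have hQ' : (Q : ℂ) ≠ 0 := by exact_mod_cast hQ.ne'
  push_cast
  field_simp

theorem E_add_Q_mul {Q : ℕ} (hQ : 0 < Q) (n m : ℤ) : E Q (n + (Q : ℤ) * m) = E Q n := by
  rw [E_add, E_mul_Q hQ, mul_one]

theorem E_eq_one_iff {Q : ℕ} (hQ : 0 < Q) (n : ℤ) : E Q n = 1 ↔ (Q : ℤ) ∣ n := by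
  constructor
  · intro h
    unfold E at h
    rw [Complex.exp_eq_one_iff] at h
    obtain ⟨m, hm⟩ := h
    refine ⟨m, ?_⟩
    have hQ' : (Q : ℂ) ≠ 0 := by exact_mod_cast hQ.ne'
    have hpi : (Real.pi : ℂ) ≠ 0 := by exact_mod_cast Real.pi_ne_zero
    have h2 : (2 : ℂ) ≠ 0 := two_ne_zero
    have hI : Complex.I ≠ 0 := Complex.I_ne_zero
    field_simp at hm
    have hcast : (n : ℂ) = ((Q : ℤ) * m : ℤ) := by
      push_cast
      linear_combination hm
    exact_mod_cast hcast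
  · rintro ⟨m, rfl⟩
    exact E_mul_Q hQ m

theorem E_mul_nat (Q : ℕ) (n : ℤ) (s : ℕ) : E Q (n * s) = E Q n ^ s := by
  induction s with
  | zero => simp [E_zero]
  | succ s ih =>
    rw [pow_succ, ← ih, ← E_add]
    congr 1
    push_cast
    ring

/-- Indicator of divisibility by `Q`. -/
noncomputable def ind (Q : ℕ) (x : ℤ) : ℝ := if (Q : ℤ) ∣ x then 1 else 0

theorem ind_nonneg (Q : ℕ) (x : ℤ) : 0 ≤ ind Q x := by
  unfold ind
  split_ifs <;> norm_num

theorem ind_le_one (Q : ℕ) (x : ℤ) : ind Q x ≤ 1 := by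
  unfold ind
  split_ifs <;> norm_num

/-- Orthogonality on the cyclic group. -/
theorem orth {Q : ℕ} (hQ : 0 < Q) (n : ℤ) :
    ∑ s ∈ range Q, E Q (n * s) = (Q : ℂ) * (ind Q n : ℝ) := by
  simp only [E_mul_nat]
  by_cases h : (Q : ℤ) ∣ n
  · have h1 : E Q n = 1 := (E_eq_one_iff hQ n).2 h
    simp [h1, ind, h]
  · have h1 : E Q n ≠ 1 := fun h' => h ((E_eq_one_iff hQ n).1 h')
    have hpow : E Q n ^ Q = 1 := by
      rw [← E_mul_nat, mul_comm]
      exact E_mul_Q hQ n
    have := geom_sum_mul (E Q n) Q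
    rw [hpow, sub_self] at this
    have h0 : ∑ i ∈ range Q, E Q n ^ i = 0 :=
      (mul_eq_zero.mp this).resolve_right (sub_ne_zero.mpr h1)
    rw [h0]
    simp [ind, h]

/-- At most one element in an interval of length at most `Q` is divisible by `Q`. -/
theorem sum_ind_le_one {Q L : ℕ} (hQ : 0 < Q) (hL : L ≤ Q) (n : ℤ) :
    ∑ h ∈ range L, ind Q ((h : ℤ) + n) ≤ 1 := by
  classical
  have hcard : ∑ h ∈ range L, ind Q ((h : ℤ) + n)
      = (((range L).filter (fun h : ℕ => (Q : ℤ) ∣ (h : ℤ) + n)).card : ℝ) := by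
    unfold ind
    rw [Finset.sum_ite]
    simp
  rw [hcard]
  have : ((range L).filter (fun h : ℕ => (Q : ℤ) ∣ (h : ℤ) + n)).card ≤ 1 := by
    rw [Finset.card_le_one]
    intro x hx y hy
    simp only [mem_filter, mem_range] at hx hy
    obtain ⟨hx1, hx2⟩ := hx
    obtain ⟨hy1, hy2⟩ := hy
    have hd : (Q : ℤ) ∣ (x : ℤ) - y := by
      have := dvd_sub hx2 hy2
      simpa using this
    obtain ⟨m, hm⟩ := hd
    have hx' : (x : ℤ) < Q := by exact_mod_cast lt_of_lt_of_le hx1 hL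
    have hy' : (y : ℤ) < Q := by exact_mod_cast lt_of_lt_of_le hy1 hL
    have hQ' : (0 : ℤ) < Q := by exact_mod_cast hQ
    have hm0 : m = 0 := by
      by_contra hne
      have hm1 : m ≥ 1 ∨ m ≤ -1 := by omega
      rcases hm1 with h1 | h1
      · have : (Q : ℤ) * m ≥ Q := by nlinarith
        have hxn : (0 : ℤ) ≤ x := by positivity
        have hyn : (0 : ℤ) ≤ y := by positivity
        omega
      · have : (Q : ℤ) * m ≤ -Q := by nlinarith
        have hxn : (0 : ℤ) ≤ x := by positivity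
        have hyn : (0 : ℤ) ≤ y := by positivity
        omega
    subst hm0
    have : (x : ℤ) = y := by
      have : (x : ℤ) - y = 0 := by simpa using hm
      omega
    exact_mod_cast this
  exact_mod_cast this

end Vale.Agent.Lib.P110
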