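import Vale.Agent.Lib.P110.Active

/-! The final counting: the window masses cannot cover the complement of the rational arcs. -/

namespace Vale.Agent.Lib.P110

open Finset

theorem Cor_zero {Q L N : ℕ} {a : ℕ → ℝ} (ha : ∀ k < N, a k = 1 ∨ a k = -1) (τ : ℤ) :
    Cor a N Q L 0 τ = ∑ k ∈ range N, T Q L ((k : ℤ) - τ) := by
  unfold Cor
  apply Finset.sum_congr rfl
  intro k hk
  have hk' := mem_range.1 hk
  simp only [add_zero, if_pos hk', sq_of_pm (ha k hk'), mul_one]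

/-- The mass of any window. -/
theorem mass_le {Q L N : ℕ} {a : ℕ → ℝ} (hQ : 0 < Q) (hN : 0 < N) (hL0 : 0 < L) (hNQ : N ≤ Q)
    (ha : ∀ k < N, a k = 1 ∨ a k = -1) {kt' : ℕ → ℤ} {e : ℝ} {J : ℕ}
    (hE : ∀ (τ : ℤ) (j : ℕ), j ≤ J →
      |Cor a N Q L j τ - (N / (Q : ℝ)) * ∑ s ∈ range Q, T Q L (kt' s - τ) * co Q ((j : ℤ) * s)|
        ≤ e * N) (τ : ℤ) :
    ∑ s ∈ range Q, T Q L (kt' s - τ) ≤ (Q : ℝ) * ((L : ℝ) / N + e) := by
  have hQr : (0 : ℝ) < Q := by exact_mod_cast hQ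
  have hNr : (0 : ℝ) < N := by exact_mod_cast hN
  have h0 := hE τ 0 (Nat.zero_le _)
  simp only [co_zero_mul, mul_one] at h0
  rw [Cor_zero ha] at h0
  have h1 := T_sum_le (L := L) hQ hL0 hNQ τ
  have h2 := (abs_le.1 h0).1
  have h3 : (N / (Q : ℝ)) * ∑ s ∈ range Q, T Q L (kt' s - τ) ≤ (L : ℝ) + e * N := by linarith
  have h4 : (N : ℝ) * ∑ s ∈ range Q, T Q L (kt' s - τ) ≤ (N : ℝ) * ((Q : ℝ) * ((L : ℝ) / N + e)) := by
    have h5 := mul_le_mul_of_nonneg_left h3 hQr.le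
    have h6 : (Q : ℝ) * ((N / (Q : ℝ)) * ∑ s ∈ range Q, T Q L (kt' s - τ)) =
        (N : ℝ) * ∑ s ∈ range Q, T Q L (kt' s - τ) := by
      field_simp
    rw [h6] at h5
    refine h5.trans (le_of_eq ?_)
    field_simp
  exact le_of_mul_le_mul_left h4 hNr

/-- The main counting inequality. -/
theorem core_ineq {Q L W R A N M1 J n : ℕ} {a : ℕ → ℝ} {b : ℕ → ℝ} {e V : ℝ}
    (hQ : 0 < Q) (hN : 0 < N) (hL0 : 0 < L) (hW0 : 0 < W) (hA0 : 0 < A)
    (hLW : Q = L * W) (hRA : Q = R * A) (hM1 : 0 < M1) (hJ : J = 12 ^ M1) (hR : R = 12 * J)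
    (hn : n = 32 * J) (hNQ : N ≤ Q) (hJn : J * n ≤ Q)
    (ha : ∀ k < N, a k = 1 ∨ a k = -1)
    (hV : ∑ u ∈ range (Q - 1), |kk Q b (u + 1) - kk Q b u| ≤ V)
    (he0 : 0 ≤ e)
    (hE : ∀ (τ : ℤ) (j : ℕ), j ≤ 2 * J →
      |Cor a N Q L j τ -
        (N / (Q : ℝ)) * ∑ s ∈ range Q, T Q L (kt Q b s - τ) * co Q ((j : ℤ) * s)| ≤ e * N) :
    (7 / 8 : ℝ) ≤ (W : ℝ) * ((6 * e + 2 * J / N + 2 * J / L) * (8 * (n : ℝ) ^ 2)) +
      ((3 * R + 2 * R / L + 2 * V / L) / M1) * ((L : ℝ) / N + e) := by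
  classical
  have hQr : (0 : ℝ) < Q := by exact_mod_cast hQ
  have hNr : (0 : ℝ) < N := by exact_mod_cast hN
  have hLr : (0 : ℝ) < L := by exact_mod_cast hL0
  have hJ0 : 0 < J := by
    rw [hJ]
    positivity
  have hJr : (0 : ℝ) < J := by exact_mod_cast hJ0
  have hn0 : 0 < n := by omega
  have hnr : (0 : ℝ) < n := by exact_mod_cast hn0
  have hnc : (n : ℝ) = 32 * J := by
    rw [hn]
    push_cast
    ring
  have hM1r : (0 : ℝ) < M1 := by exact_mod_cast hM1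
  have hLQ : L ≤ Q := by
    rw [hLW]
    exact Nat.le_mul_of_pos_right _ hW0
  set ξ : ℝ := 1 / (8 * (n : ℝ) ^ 2) with hξ
  have hξ0 : 0 < ξ := by positivity
  set kt' := kt Q b with hkt'
  set δ : ℝ := 6 * e + 2 * J / N + 2 * J / L with hδ
  have hδ0 : 0 ≤ δ := by positivity
  -- the points far from all rationals of small denominator
  obtain ⟨P, hP⟩ : ∃ P : ℕ → Prop, ∀ s, P s ↔ ∀ j ∈ Icc 1 J, ξ < 1 - co Q ((j : ℤ) * s) :=
    ⟨_, fun _ => Iff.rfl⟩
  set Uc := (range Q).filter P with hUc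
  have hUcard : (7 / 8 : ℝ) * Q ≤ Uc.card := by
    have hsub : (range Q).filter (fun s : ℕ => ¬ P s) ⊆
        (Icc 1 J).biUnion (fun j => (range Q).filter (fun s : ℕ => 1 - co Q ((j : ℤ) * s) ≤ ξ)) := by
      intro s hs
      obtain ⟨h1, h2⟩ := mem_filter.1 hs
      rw [hP] at h2
      push Not at h2
      obtain ⟨j, hj, hj2⟩ := h2
      rw [mem_biUnion]
      exact ⟨j, hj, mem_filter.2 ⟨h1, hj2⟩⟩
    have hc1 : (((range Q).filter (fun s : ℕ => ¬ P s)).card : ℝ)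
        ≤ ∑ j ∈ Icc 1 J, (((range Q).filter (fun s : ℕ => 1 - co Q ((j : ℤ) * s) ≤ ξ)).card : ℝ) := by
      have := (Finset.card_le_card hsub).trans Finset.card_biUnion_le
      exact_mod_cast this
    have hc2 : ∑ j ∈ Icc 1 J, (((range Q).filter (fun s : ℕ => 1 - co Q ((j : ℤ) * s) ≤ ξ)).card : ℝ)
        ≤ ∑ _j ∈ Icc 1 J, (4 * (Q : ℝ) / n) := by
      apply Finset.sum_le_sum
      intro j hj
      rw [mem_Icc] at hj
      exact card_U_le hQ hn0 (by omega) ((Nat.mul_le_mul_right n hj.2).trans hJn)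
    have hc3 : ∑ _j ∈ Icc 1 J, (4 * (Q : ℝ) / n) = (Q : ℝ) / 8 := by
      simp only [sum_const, Nat.card_Icc, nsmul_eq_mul, add_tsub_cancel_right]
      rw [hnc]
      field_simp
      norm_num
    have hsplit : (Uc.card : ℝ) +
        (((range Q).filter (fun s : ℕ => ¬ P s)).card : ℝ) = Q := by
      have := Finset.card_filter_add_card_filter_not (s := range Q) P
      rw [card_range] at this
      exact_mod_cast this
    linarith
  -- the mass of each window on these points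
  set Mass : ℕ → ℝ := fun t => ∑ s ∈ Uc, T Q L (kt' s + (L : ℤ) * t) with hMass
  have hMassSub : ∀ t : ℕ, Mass t ≤ (Q : ℝ) * ((L : ℝ) / N + e) := by
    intro t
    have h1 := mass_le (L := L) hQ hN hL0 hNQ ha hE (-((L : ℤ) * t))
    simp only [sub_neg_eq_add] at h1
    refine le_trans ?_ h1
    exact Finset.sum_le_sum_of_subset_of_nonneg (Finset.filter_subset _ _)
      (fun _ _ _ => T_nonneg _ _ _)
  have hMassGood : ∀ t : ℕ, (act Q L A kt' t).card ≤ M1 → Mass t ≤ (Q : ℝ) * (δ * (8 * (n : ℝ) ^ 2)) := by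
    intro t ht
    obtain ⟨j, hj1, hj2, hj3⟩ := dirichlet hJ hR (act Q L A kt' t) ht
    have hgood : ∀ s < Q, T Q L (kt' s - (-((L : ℤ) * t))) ≠ 0 → 1 / 2 ≤ co Q ((j : ℤ) * s) := by
      intro s hs hT
      rw [sub_neg_eq_add] at hT
      have hin : s / A ∈ act Q L A kt' t := mem_act.2 ⟨s, hs, hT, rfl⟩
      obtain ⟨m, d, hd, hdec⟩ := hj3 _ hin
      refine co_ge_half hR hRA hQ hj2 hdec hd (Nat.div_mul_le_self s A) ?_
      rw [mul_comm]
      exact Nat.lt_mul_div_succ s hA0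
    have hX := X_small_of_good hQ hN hL0 hLQ ha hE (-((L : ℤ) * t)) j (by omega) hgood
    have hXδ : X Q L kt' j (-((L : ℤ) * t)) ≤ δ := by
      refine hX.trans ?_
      rw [hδ]
      have h1 : 2 * (j : ℝ) / N ≤ 2 * J / N := by
        apply div_le_div_of_nonneg_right _ hNr.le
        have : (j : ℝ) ≤ J := by exact_mod_cast hj2
        linarith
      have h2 : 2 * (j : ℝ) / L ≤ 2 * J / L := by
        apply div_le_div_of_nonneg_right _ hLr.le
        have : (j : ℝ) ≤ J := by exact_mod_cast hj2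
        linarith
      linarith
    have hlow : ξ * Mass t ≤ (Q : ℝ) * X Q L kt' j (-((L : ℤ) * t)) := by
      unfold X
      have hQcancel : (Q : ℝ) * (1 / (Q : ℝ)) = 1 := by field_simp
      rw [← mul_assoc, hQcancel, one_mul]
      simp only [hMass, sub_neg_eq_add]
      rw [Finset.mul_sum]
      calc ∑ s ∈ Uc, ξ * T Q L (kt' s + (L : ℤ) * t)
          ≤ ∑ s ∈ Uc, T Q L (kt' s + (L : ℤ) * t) * (1 - co Q ((j : ℤ) * s)) := by
            apply Finset.sum_le_sum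
            intro s hs
            have h1 := (hP s).1 (mem_filter.1 hs).2 j (mem_Icc.2 ⟨hj1, hj2⟩)
            rw [mul_comm]
            exact mul_le_mul_of_nonneg_left h1.le (T_nonneg _ _ _)
        _ ≤ ∑ s ∈ range Q, T Q L (kt' s + (L : ℤ) * t) * (1 - co Q ((j : ℤ) * s)) := by
            apply Finset.sum_le_sum_of_subset_of_nonneg (Finset.filter_subset _ _)
            intro s _ _
            apply mul_nonneg (T_nonneg _ _ _)
            linarith [co_le_one Q ((j : ℤ) * s)]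
    have h5 : ξ * Mass t ≤ (Q : ℝ) * δ := hlow.trans (mul_le_mul_of_nonneg_left hXδ hQr.le)
    have h6 : Mass t = (ξ * Mass t) * (8 * (n : ℝ) ^ 2) := by
      rw [hξ]
      field_simp
    rw [h6]
    calc ξ * Mass t * (8 * (n : ℝ) ^ 2) ≤ (Q : ℝ) * δ * (8 * (n : ℝ) ^ 2) :=
          mul_le_mul_of_nonneg_right h5 (by positivity)
      _ = _ := by ring
  -- covering
  have hcover : (Uc.card : ℝ) ≤ ∑ t ∈ range W, Mass t := by
    simp only [hMass]
    rw [Finset.sum_comm]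
    calc (Uc.card : ℝ) = ∑ _s ∈ Uc, (1 : ℝ) := by simp
      _ ≤ _ := Finset.sum_le_sum fun s _ => T_partition hQ hL0 hLW (kt' s)
  -- bad windows
  set bad := (range W).filter (fun t => M1 < (act Q L A kt' t).card) with hbad
  have hbadcard : (bad.card : ℝ) * M1 ≤ 3 * R + 2 * R / L + 2 * V / L := by
    have h1 := sum_act_le hL0 hW0 hA0 hLW hRA b hV
    refine le_trans ?_ h1
    calc (bad.card : ℝ) * M1 = ∑ _t ∈ bad, (M1 : ℝ) := by simp
      _ ≤ ∑ t ∈ bad, ((act Q L A kt' t).card : ℝ) := by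
          apply Finset.sum_le_sum
          intro t ht
          have := (mem_filter.1 ht).2
          exact_mod_cast this.le
      _ ≤ _ := Finset.sum_le_sum_of_subset_of_nonneg (Finset.filter_subset _ _)
          (fun _ _ _ => by positivity)
  have hpos : 0 ≤ (Q : ℝ) * ((L : ℝ) / N + e) := by positivity
  have hpos2 : 0 ≤ (Q : ℝ) * (δ * (8 * (n : ℝ) ^ 2)) := by positivity
  have hsumMass : ∑ t ∈ range W, Mass t ≤ (W : ℝ) * ((Q : ℝ) * (δ * (8 * (n : ℝ) ^ 2))) +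
      (bad.card : ℝ) * ((Q : ℝ) * ((L : ℝ) / N + e)) := by
    have h1 : ∀ t ∈ range W, Mass t ≤ (Q : ℝ) * (δ * (8 * (n : ℝ) ^ 2)) +
        (if t ∈ bad then (Q : ℝ) * ((L : ℝ) / N + e) else 0) := by
      intro t ht
      by_cases hb : t ∈ bad
      · rw [if_pos hb]
        linarith [hMassSub t]
      · rw [if_neg hb, add_zero]
        apply hMassGood
        by_contra hcon
        exact hb (mem_filter.2 ⟨ht, by omega⟩)
    refine (Finset.sum_le_sum h1).trans (le_of_eq ?_)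
    rw [Finset.sum_add_distrib]
    congr 1
    · simp
    · rw [← Finset.sum_filter]
      have : (range W).filter (fun t => t ∈ bad) = bad := by
        ext t
        simp only [mem_filter, hbad, mem_range]
        tauto
      rw [this]
      simp
  have hfinal : (7 / 8 : ℝ) * Q ≤ (Q : ℝ) * ((W : ℝ) * (δ * (8 * (n : ℝ) ^ 2)) +
      (((3 * R + 2 * R / L + 2 * V / L) / M1) * ((L : ℝ) / N + e))) := by
    have hb2 : (bad.card : ℝ) ≤ (3 * R + 2 * R / L + 2 * V / L) / M1 := by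
      rw [le_div_iff₀ hM1r]
      exact hbadcard
    have h1 : (bad.card : ℝ) * ((Q : ℝ) * ((L : ℝ) / N + e)) ≤
        ((3 * R + 2 * R / L + 2 * V / L) / M1) * ((Q : ℝ) * ((L : ℝ) / N + e)) :=
      mul_le_mul_of_nonneg_right hb2 hpos
    calc (7 / 8 : ℝ) * Q ≤ Uc.card := hUcard
      _ ≤ ∑ t ∈ range W, Mass t := hcover
      _ ≤ _ := hsumMass
      _ ≤ (W : ℝ) * ((Q : ℝ) * (δ * (8 * (n : ℝ) ^ 2))) +
          ((3 * R + 2 * R / L + 2 * V / L) / M1) * ((Q : ℝ) * ((L : ℝ) / N + e)) := by linarith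
      _ = _ := by ring
  have hfinal2 : (Q : ℝ) * (7 / 8) ≤ (Q : ℝ) * ((W : ℝ) * (δ * (8 * (n : ℝ) ^ 2)) +
      (((3 * R + 2 * R / L + 2 * V / L) / M1) * ((L : ℝ) / N + e))) := by
    linarith
  exact le_of_mul_le_mul_left hfinal2 hQr

end Vale.Agent.Lib.P110
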