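import Vale.Agent.Lib.P110.Spectral

/-! The cut inequality for `±1` sequences and its effect at windows with few active arcs. -/

namespace Vale.Agent.Lib.P110

open Finset

/-- Windowed disagreement at lag `j`. -/
noncomputable def Xi (a : ℕ → ℝ) (N Q L : ℕ) (j : ℕ) (τ : ℤ) : ℝ :=
  ∑ k ∈ range N, T Q L ((k : ℤ) - τ) * (if k + j < N then 1 - a k * a (k + j) else 0)

theorem sq_of_pm {x : ℝ} (h : x = 1 ∨ x = -1) : x * x = 1 := by
  rcases h with rfl | rfl <;> norm_num

theorem Cor_sub_eq {Q L N : ℕ} {a : ℕ → ℝ} (ha : ∀ k < N, a k = 1 ∨ a k = -1) (j : ℕ) (τ : ℤ) :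
    Cor a N Q L 0 τ - Cor a N Q L j τ = Xi a N Q L j τ +
      ∑ k ∈ range N, T Q L ((k : ℤ) - τ) * (if k + j < N then 0 else 1) := by
  unfold Cor Xi
  rw [← Finset.sum_sub_distrib, ← Finset.sum_add_distrib]
  apply Finset.sum_congr rfl
  intro k hk
  have hk' := mem_range.1 hk
  have h1 := sq_of_pm (ha k hk')
  simp only [add_zero, if_pos hk']
  by_cases h : k + j < N
  · simp only [if_pos h]
    rw [h1]
    ring
  · simp only [if_neg h]
    rw [h1]
    ring

theorem extra_nonneg (Q L N j : ℕ) (τ : ℤ) :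
    0 ≤ ∑ k ∈ range N, T Q L ((k : ℤ) - τ) * (if k + j < N then (0 : ℝ) else 1) := by
  apply Finset.sum_nonneg
  intro k _
  apply mul_nonneg (T_nonneg _ _ _)
  split_ifs <;> norm_num

theorem extra_le {Q L N : ℕ} (hQ : 0 < Q) (hL0 : 0 < L) (hL : L ≤ Q) (j : ℕ) (τ : ℤ) :
    ∑ k ∈ range N, T Q L ((k : ℤ) - τ) * (if k + j < N then (0 : ℝ) else 1) ≤ j := by
  classical
  have h1 : ∀ k ∈ range N, T Q L ((k : ℤ) - τ) * (if k + j < N then (0 : ℝ) else 1) ≤
      if k ∈ Ico (N - j) N then (1 : ℝ) else 0 := by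
    intro k hk
    have hk' := mem_range.1 hk
    have hT := T_le_one hQ hL0 hL ((k : ℤ) - τ)
    have hT0 := T_nonneg Q L ((k : ℤ) - τ)
    by_cases h : k + j < N
    · simp only [if_pos h, mul_zero]
      split_ifs <;> norm_num
    · have hin : k ∈ Ico (N - j) N := by
        rw [mem_Ico]
        omega
      simp only [if_neg h, if_pos hin, mul_one]
      exact hT
  refine (Finset.sum_le_sum h1).trans ?_
  rw [← Finset.sum_filter]
  simp only [sum_const, nsmul_eq_mul, mul_one]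
  have hsub : (range N).filter (fun k => k ∈ Ico (N - j) N) ⊆ Ico (N - j) N := by
    intro k hk
    exact (mem_filter.1 hk).2
  have h2 := Finset.card_le_card hsub
  rw [Nat.card_Ico] at h2
  have h3 : ((range N).filter (fun k => k ∈ Ico (N - j) N)).card ≤ j := by omega
  exact_mod_cast h3

/-- The triangle inequality of the cut metric, in windowed form. -/
theorem Xi_cut {Q L N : ℕ} {a : ℕ → ℝ} (ha : ∀ k < N, a k = 1 ∨ a k = -1) (j : ℕ) (τ : ℤ) :
    Xi a N Q L (2 * j) τ ≤ Xi a N Q L j τ + Xi a N Q L j (τ + j) := by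
  classical
  set g : ℕ → ℝ := fun k =>
    T Q L ((k : ℤ) - (τ + j)) * (if k + j < N then 1 - a k * a (k + j) else 0) with hg
  have hpm : ∀ k < N, ∀ k' < N, 0 ≤ 1 - a k * a k' := by
    intro k hk k' hk'
    rcases ha k hk with h | h <;> rcases ha k' hk' with h' | h' <;> rw [h, h'] <;> norm_num
  have hg0 : ∀ k ∈ range N, 0 ≤ g k := by
    intro k hk
    simp only [hg]
    apply mul_nonneg (T_nonneg _ _ _)
    split_ifs with h
    · exact hpm k (mem_range.1 hk) _ h
    · exact le_rfl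
  have hsecond : ∑ k ∈ (range N).filter (fun k => k + 2 * j < N),
      T Q L ((k : ℤ) - τ) * (1 - a (k + j) * a (k + 2 * j)) ≤ Xi a N Q L j (τ + j) := by
    have hinj : Set.InjOn (fun k => k + j)
        ((range N).filter (fun k => k + 2 * j < N) : Finset ℕ) := by
      intro x _ y _ h
      simpa using h
    have h1 : ∑ k ∈ (range N).filter (fun k => k + 2 * j < N),
        T Q L ((k : ℤ) - τ) * (1 - a (k + j) * a (k + 2 * j)) =
        ∑ k ∈ ((range N).filter (fun k => k + 2 * j < N)).image (fun k => k + j), g k := by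
      rw [Finset.sum_image hinj]
      apply Finset.sum_congr rfl
      intro k hk
      have hk2 := (mem_filter.1 hk).2
      simp only [hg]
      have h3 : k + j + j < N := by omega
      rw [if_pos h3]
      have h4 : ((k + j : ℕ) : ℤ) - (τ + j) = (k : ℤ) - τ := by
        push_cast
        ring
      have h5 : k + j + j = k + 2 * j := by ring
      rw [h4, h5]
    rw [h1]
    unfold Xi
    apply Finset.sum_le_sum_of_subset_of_nonneg
    · intro k hk
      obtain ⟨x, hx, rfl⟩ := mem_image.1 hk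
      have := (mem_filter.1 hx).2
      rw [mem_range]
      omega
    · intro k hk _
      exact hg0 k hk
  have hfirst : ∑ k ∈ (range N).filter (fun k => k + 2 * j < N),
      T Q L ((k : ℤ) - τ) * (1 - a k * a (k + j)) ≤ Xi a N Q L j τ := by
    unfold Xi
    have : ∀ k ∈ (range N).filter (fun k => k + 2 * j < N),
        T Q L ((k : ℤ) - τ) * (1 - a k * a (k + j)) =
          T Q L ((k : ℤ) - τ) * (if k + j < N then 1 - a k * a (k + j) else 0) := by
      intro k hk
      have := (mem_filter.1 hk).2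
      have h3 : k + j < N := by omega
      rw [if_pos h3]
    rw [Finset.sum_congr rfl this]
    apply Finset.sum_le_sum_of_subset_of_nonneg (Finset.filter_subset _ _)
    intro k hk _
    apply mul_nonneg (T_nonneg _ _ _)
    split_ifs with h
    · exact hpm k (mem_range.1 hk) _ h
    · exact le_rfl
  have hmain : Xi a N Q L (2 * j) τ ≤
      ∑ k ∈ (range N).filter (fun k => k + 2 * j < N),
        T Q L ((k : ℤ) - τ) * (1 - a k * a (k + j)) +
      ∑ k ∈ (range N).filter (fun k => k + 2 * j < N),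
        T Q L ((k : ℤ) - τ) * (1 - a (k + j) * a (k + 2 * j)) := by
    unfold Xi
    rw [← Finset.sum_add_distrib]
    have h1 : ∑ k ∈ range N, T Q L ((k : ℤ) - τ) *
          (if k + 2 * j < N then 1 - a k * a (k + 2 * j) else 0) =
        ∑ k ∈ (range N).filter (fun k => k + 2 * j < N),
          T Q L ((k : ℤ) - τ) * (1 - a k * a (k + 2 * j)) := by
      rw [Finset.sum_filter]
      apply Finset.sum_congr rfl
      intro k _
      split_ifs <;> simp
    rw [h1]
    apply Finset.sum_le_sum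
    intro k hk
    have hk2 := (mem_filter.1 hk).2
    rw [← mul_add]
    apply mul_le_mul_of_nonneg_left _ (T_nonneg _ _ _)
    have hk' := mem_range.1 (mem_filter.1 hk).1
    have h1' := ha k hk'
    have h2' := ha (k + j) (by omega)
    have h3' := ha (k + 2 * j) hk2
    rcases h1' with h | h <;> rcases h2' with h' | h' <;> rcases h3' with h'' | h'' <;>
      rw [h, h', h''] <;> norm_num
  linarith

/-- The spectral second moment of a window at lag `j`. -/
noncomputable def X (Q L : ℕ) (kt : ℕ → ℤ) (j : ℕ) (τ : ℤ) : ℝ :=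
  (1 / (Q : ℝ)) * ∑ s ∈ range Q, T Q L (kt s - τ) * (1 - co Q ((j : ℤ) * s))

theorem co_le_one (Q : ℕ) (n : ℤ) : co Q n ≤ 1 := Real.cos_le_one _

theorem neg_one_le_co (Q : ℕ) (n : ℤ) : -1 ≤ co Q n := Real.neg_one_le_cos _

theorem co_zero_mul (Q : ℕ) (s : ℕ) : co Q (((0 : ℕ) : ℤ) * s) = 1 := by
  simp [co]

theorem co_two_mul (Q j s : ℕ) :
    co Q (((2 * j : ℕ) : ℤ) * s) = 2 * co Q ((j : ℤ) * s) ^ 2 - 1 := by
  unfold co
  rw [← Real.cos_two_mul]
  congr 1
  push_cast
  ring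

theorem X_nonneg (Q L : ℕ) (kt : ℕ → ℤ) (j : ℕ) (τ : ℤ) : 0 ≤ X Q L kt j τ := by
  unfold X
  apply mul_nonneg (by positivity)
  apply Finset.sum_nonneg
  intro s _
  apply mul_nonneg (T_nonneg _ _ _)
  linarith [co_le_one Q ((j : ℤ) * s)]

/-- Comparison between correlations and the spectral quantity `X`. -/
theorem X_vs_Cor {Q L N : ℕ} {a : ℕ → ℝ} (hQ : 0 < Q) {kt : ℕ → ℤ} {e : ℝ} {J : ℕ}
    (hE : ∀ (τ : ℤ) (j : ℕ), j ≤ J →
      |Cor a N Q L j τ - (N / (Q : ℝ)) * ∑ s ∈ range Q, T Q L (kt s - τ) * co Q ((j : ℤ) * s)|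
        ≤ e * N) (τ : ℤ) (j : ℕ) (hj : j ≤ J) :
    |(Cor a N Q L 0 τ - Cor a N Q L j τ) - N * X Q L kt j τ| ≤ 2 * (e * N) := by
  have hQr : (0 : ℝ) < Q := by exact_mod_cast hQ
  have h0 := hE τ 0 (Nat.zero_le _)
  have hj' := hE τ j hj
  simp only [co_zero_mul, mul_one] at h0
  have hX : (N : ℝ) * X Q L kt j τ = (N / (Q : ℝ)) * ∑ s ∈ range Q, T Q L (kt s - τ) -
      (N / (Q : ℝ)) * ∑ s ∈ range Q, T Q L (kt s - τ) * co Q ((j : ℤ) * s) := by
    unfold X
    rw [← mul_sub, ← Finset.sum_sub_distrib]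
    have : ∀ s ∈ range Q, T Q L (kt s - τ) - T Q L (kt s - τ) * co Q ((j : ℤ) * s) =
        T Q L (kt s - τ) * (1 - co Q ((j : ℤ) * s)) := fun s _ => by ring
    rw [Finset.sum_congr rfl this]
    ring
  rw [hX]
  rw [abs_le] at h0 hj' ⊢
  constructor <;> linarith [h0.1, h0.2, hj'.1, hj'.2]

/-- The doubling inequality for `X`. -/
theorem X_double {Q L N : ℕ} {a : ℕ → ℝ} (hQ : 0 < Q) (hN : 0 < N) (hL0 : 0 < L) (hL : L ≤ Q)
    (ha : ∀ k < N, a k = 1 ∨ a k = -1) {kt : ℕ → ℤ} {e : ℝ} {J : ℕ}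
    (hE : ∀ (τ : ℤ) (j : ℕ), j ≤ J →
      |Cor a N Q L j τ - (N / (Q : ℝ)) * ∑ s ∈ range Q, T Q L (kt s - τ) * co Q ((j : ℤ) * s)|
        ≤ e * N) (τ : ℤ) (j : ℕ) (hj : 2 * j ≤ J) :
    X Q L kt (2 * j) τ ≤ 2 * X Q L kt j τ + (6 * e + 2 * j / N + 2 * j / L) := by
  have hQr : (0 : ℝ) < Q := by exact_mod_cast hQ
  have hNr : (0 : ℝ) < N := by exact_mod_cast hN
  have hLr : (0 : ℝ) < L := by exact_mod_cast hL0
  have hj1 : j ≤ J := by omega
  have h1 := abs_le.1 (X_vs_Cor hQ hE τ (2 * j) hj)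
  have h2 := abs_le.1 (X_vs_Cor hQ hE τ j hj1)
  have h3 := abs_le.1 (X_vs_Cor hQ hE (τ + j) j hj1)
  have e1 := Cor_sub_eq (Q := Q) (L := L) ha (2 * j) τ
  have e2 := Cor_sub_eq (Q := Q) (L := L) ha j τ
  have e3 := Cor_sub_eq (Q := Q) (L := L) ha j (τ + j)
  have x1 := extra_le (N := N) hQ hL0 hL (2 * j) τ
  have x2 := extra_nonneg Q L N j τ
  have x3 := extra_nonneg Q L N j (τ + j)
  have hcut := Xi_cut (Q := Q) (L := L) ha j τ
  have hshift : X Q L kt j (τ + j) ≤ X Q L kt j τ + 2 * (j : ℝ) / L := by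
    unfold X
    have hterm : ∀ s ∈ range Q, T Q L (kt s - (τ + j)) * (1 - co Q ((j : ℤ) * s)) ≤
        T Q L (kt s - τ) * (1 - co Q ((j : ℤ) * s)) + 2 * (j : ℝ) / L := by
      intro s _
      have hlip := T_lip hQ hL0 hL (kt s - τ) j
      have heq : kt s - τ - (j : ℤ) = kt s - (τ + j) := by ring
      rw [heq] at hlip
      have hup := (abs_le.1 hlip).2
      have hc1 := co_le_one Q ((j : ℤ) * s)
      have hc2 := neg_one_le_co Q ((j : ℤ) * s)
      have hc3 : 0 ≤ 1 - co Q ((j : ℤ) * s) := by linarith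
      have hc4 : 1 - co Q ((j : ℤ) * s) ≤ 2 := by linarith
      have hjL : 0 ≤ (j : ℝ) / L := by positivity
      have h5 : (T Q L (kt s - (τ + j)) - T Q L (kt s - τ)) * (1 - co Q ((j : ℤ) * s)) ≤
          ((j : ℝ) / L) * 2 :=
        mul_le_mul hup hc4 hc3 hjL
      have h6 : 2 * (j : ℝ) / L = ((j : ℝ) / L) * 2 := by ring
      rw [h6]
      nlinarith
    have hsum := Finset.sum_le_sum hterm
    rw [Finset.sum_add_distrib] at hsum
    simp only [sum_const, card_range, nsmul_eq_mul] at hsum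
    have hmul := mul_le_mul_of_nonneg_left hsum (by positivity : (0 : ℝ) ≤ 1 / (Q : ℝ))
    refine hmul.trans (le_of_eq ?_)
    rw [mul_add]
    congr 1
    field_simp
  have hNX : (N : ℝ) * X Q L kt (2 * j) τ ≤
      N * (2 * X Q L kt j τ + (6 * e + 2 * j / N + 2 * j / L)) := by
    have hs := mul_le_mul_of_nonneg_left hshift hNr.le
    have hexp : (N : ℝ) * (2 * X Q L kt j τ + (6 * e + 2 * j / N + 2 * j / L)) =
        2 * (N * X Q L kt j τ) + 6 * (e * N) + 2 * j + N * (2 * j / L) := by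
      field_simp
      ring
    have hs2 : (N : ℝ) * (X Q L kt j τ + 2 * (j : ℝ) / L) =
        N * X Q L kt j τ + N * (2 * j / L) := by
      ring
    rw [hs2] at hs
    rw [hexp]
    have x1' : ∑ k ∈ range N, T Q L ((k : ℤ) - τ) * (if k + 2 * j < N then (0 : ℝ) else 1) ≤
        2 * (j : ℝ) := by
      have := x1
      push_cast at this
      exact this
    linarith [h1.1, h1.2, h2.1, h2.2, h3.1, h3.2]
  exact le_of_mul_le_mul_left hNX hNr

/-- At a window on whose support all `cos` values are at least `1/2`,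
the spectral second moment is small. -/
theorem X_small_of_good {Q L N : ℕ} {a : ℕ → ℝ} (hQ : 0 < Q) (hN : 0 < N) (hL0 : 0 < L)
    (hL : L ≤ Q) (ha : ∀ k < N, a k = 1 ∨ a k = -1) {kt : ℕ → ℤ} {e : ℝ} {J : ℕ}
    (hE : ∀ (τ : ℤ) (j : ℕ), j ≤ J →
      |Cor a N Q L j τ - (N / (Q : ℝ)) * ∑ s ∈ range Q, T Q L (kt s - τ) * co Q ((j : ℤ) * s)|
        ≤ e * N) (τ : ℤ) (j : ℕ) (hj : 2 * j ≤ J)
    (hgood : ∀ s < Q, T Q L (kt s - τ) ≠ 0 → 1 / 2 ≤ co Q ((j : ℤ) * s)) :
    X Q L kt j τ ≤ 6 * e + 2 * j / N + 2 * j / L := by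
  have h := X_double hQ hN hL0 hL ha hE τ j hj
  have h3 : 3 * X Q L kt j τ ≤ X Q L kt (2 * j) τ := by
    unfold X
    rw [← mul_assoc, mul_comm 3, mul_assoc]
    apply mul_le_mul_of_nonneg_left _ (by positivity)
    rw [Finset.mul_sum]
    apply Finset.sum_le_sum
    intro s hs
    by_cases hT : T Q L (kt s - τ) = 0
    · simp [hT]
    · have hc := hgood s (mem_range.1 hs) hT
      have hc1 := co_le_one Q ((j : ℤ) * s)
      rw [co_two_mul]
      have hT0 := T_nonneg Q L (kt s - τ)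
      set c := co Q ((j : ℤ) * s)
      have : 3 * (1 - c) ≤ 1 - (2 * c ^ 2 - 1) := by nlinarith
      calc 3 * (T Q L (kt s - τ) * (1 - c)) = T Q L (kt s - τ) * (3 * (1 - c)) := by ring
        _ ≤ _ := mul_le_mul_of_nonneg_left this hT0
  linarith

end Vale.Agent.Lib.P110
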