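import Vale.Agent.Lib.P110.Cut

/-! Simultaneous approximation by pigeonhole. -/

namespace Vale.Agent.Lib.P110

open Finset

theorem dirichlet_key {J R j1 j2 i : ℕ} (hJ0 : 0 < J)
    (h : ((j1 * i) % R) / J = ((j2 * i) % R) / J) (hlt : j1 < j2) :
    ∃ m d : ℤ, |d| < J ∧ (((j2 - j1 : ℕ) : ℤ)) * i = (R : ℤ) * m + d := by
  set x1 := (j1 * i) % R with hx1
  set x2 := (j2 * i) % R with hx2
  refine ⟨(((j2 * i) / R : ℕ) : ℤ) - (((j1 * i) / R : ℕ) : ℤ), (x2 : ℤ) - x1, ?_, ?_⟩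
  · have e1 : J * (x1 / J) + x1 % J = x1 := Nat.div_add_mod _ _
    have e2 : J * (x2 / J) + x2 % J = x2 := Nat.div_add_mod _ _
    have l1 : x1 % J < J := Nat.mod_lt _ hJ0
    have l2 : x2 % J < J := Nat.mod_lt _ hJ0
    rw [h] at e1
    rw [abs_lt]
    constructor <;> omega
  · have e1 : R * ((j1 * i) / R) + x1 = j1 * i := Nat.div_add_mod _ _
    have e2 : R * ((j2 * i) / R) + x2 = j2 * i := Nat.div_add_mod _ _
    have e1' : (R : ℤ) * (((j1 * i) / R : ℕ) : ℤ) + x1 = j1 * i := by exact_mod_cast e1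
    have e2' : (R : ℤ) * (((j2 * i) / R : ℕ) : ℤ) + x2 = j2 * i := by exact_mod_cast e2
    rw [Nat.cast_sub hlt.le]
    linear_combination e1' - e2'

/-- Pigeonhole for residues: some multiple `j ≤ J` makes all `j i` close to a multiple of `R`. -/
theorem dirichlet {M1 J R : ℕ} (hJ : J = 12 ^ M1) (hR : R = 12 * J) (S : Finset ℕ)
    (hS : S.card ≤ M1) :
    ∃ j, 1 ≤ j ∧ j ≤ J ∧ ∀ i ∈ S, ∃ m d : ℤ, |d| < J ∧ (j : ℤ) * i = (R : ℤ) * m + d := by
  classical
  have hJ0 : 0 < J := by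
    rw [hJ]
    positivity
  have hR0 : 0 < R := by omega
  let f : ℕ → (↥S → Fin 12) := fun j i =>
    ⟨((j * (i : ℕ)) % R) / J, by
      apply Nat.div_lt_of_lt_mul
      have := Nat.mod_lt (j * (i : ℕ)) hR0
      omega⟩
  have hcard : (Finset.univ : Finset (↥S → Fin 12)).card < (range (J + 1)).card := by
    rw [Finset.card_univ, card_range, Fintype.card_fun, Fintype.card_fin, Fintype.card_coe]
    have : 12 ^ S.card ≤ 12 ^ M1 := Nat.pow_le_pow_right (by norm_num) hS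
    omega
  obtain ⟨x, hx, y, hy, hne, hf⟩ := Finset.exists_ne_map_eq_of_card_lt_of_maps_to hcard
    (f := f) (fun _ _ => by simp)
  have hx' := mem_range.1 (Finset.mem_coe.1 hx)
  have hy' := mem_range.1 (Finset.mem_coe.1 hy)
  have hval : ∀ i ∈ S, ((x * i) % R) / J = ((y * i) % R) / J := by
    intro i hi
    have := congrFun hf ⟨i, hi⟩
    simpa [f, Fin.ext_iff] using this
  rcases lt_or_gt_of_ne hne with hlt | hlt
  · refine ⟨y - x, by omega, by omega, ?_⟩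
    intro i hi
    exact dirichlet_key hJ0 (hval i hi) hlt
  · refine ⟨x - y, by omega, by omega, ?_⟩
    intro i hi
    exact dirichlet_key hJ0 (hval i hi).symm hlt

theorem co_add_Q_mul {Q : ℕ} (hQ : 0 < Q) (n m : ℤ) : co Q (n + (Q : ℤ) * m) = co Q n := by
  rw [← E_re, E_add_Q_mul hQ, E_re]

theorem co_ge_half_of_abs {Q : ℕ} (hQ : 0 < Q) {n : ℤ} (h : 6 * |n| ≤ Q) : 1 / 2 ≤ co Q n := by
  have hQr : (0 : ℝ) < Q := by exact_mod_cast hQ
  unfold co
  rw [← Real.cos_abs, ← Real.cos_pi_div_three]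
  have h' : 6 * |(n : ℝ)| ≤ Q := by exact_mod_cast h
  have hx : |2 * Real.pi * n / Q| ≤ Real.pi / 3 := by
    rw [abs_div, abs_mul, abs_of_pos (by positivity : (0 : ℝ) < 2 * Real.pi),
      abs_of_pos hQr, div_le_iff₀ hQr]
    nlinarith [Real.pi_pos]
  apply Real.cos_le_cos_of_nonneg_of_le_pi (abs_nonneg _) _ hx
  linarith [Real.pi_pos]

/-- On an arc around a point `i A`, the approximation persists. -/
theorem co_ge_half {Q R A J j i s : ℕ} {m d : ℤ} (hR : R = 12 * J) (hQ : Q = R * A) (hQ0 : 0 < Q)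
    (hj : j ≤ J) (hdec : (j : ℤ) * i = (R : ℤ) * m + d) (hd : |d| < J)
    (hs1 : i * A ≤ s) (hs2 : s < (i + 1) * A) : 1 / 2 ≤ co Q ((j : ℤ) * s) := by
  obtain ⟨x, rfl⟩ := Nat.exists_eq_add_of_le hs1
  have hxA : x < A := by
    have : i * A + x < i * A + A := by
      calc i * A + x < (i + 1) * A := hs2
        _ = i * A + A := by ring
    omega
  have hid : (j : ℤ) * ((i * A + x : ℕ) : ℤ) = ((d : ℤ) * A + j * x) + (Q : ℤ) * m := by
    rw [hQ]
    push_cast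
    linear_combination (A : ℤ) * hdec
  rw [hid, co_add_Q_mul hQ0]
  apply co_ge_half_of_abs hQ0
  have hJ' : (j : ℤ) ≤ J := by exact_mod_cast hj
  have hxA' : (x : ℤ) ≤ A := by exact_mod_cast hxA.le
  have hx0 : (0 : ℤ) ≤ x := by positivity
  have hj0 : (0 : ℤ) ≤ j := by positivity
  have hA0 : (0 : ℤ) ≤ A := by positivity
  have hJ0 : (0 : ℤ) ≤ J := by positivity
  have h1 : |(d : ℤ) * A + j * x| ≤ |d| * A + j * x := by
    calc |(d : ℤ) * A + j * x| ≤ |(d : ℤ) * A| + |(j : ℤ) * x| := abs_add_le _ _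
      _ = |d| * A + j * x := by
          rw [abs_mul, abs_of_nonneg hA0, abs_of_nonneg (mul_nonneg hj0 hx0)]
  have h2 : |d| * A ≤ (J : ℤ) * A := mul_le_mul_of_nonneg_right hd.le hA0
  have h3 : (j : ℤ) * x ≤ (J : ℤ) * A := mul_le_mul hJ' hxA' hx0 hJ0
  have hQc : (Q : ℤ) = 12 * (J : ℤ) * A := by
    rw [hQ, hR]
    push_cast
    ring
  rw [hQc]
  nlinarith

end Vale.Agent.Lib.P110
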