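import Vale.Agent.Lib.P110.Dirichlet

/-! Few grid points have all large multiples near zero. -/

namespace Vale.Agent.Lib.P110

open Finset
open scoped ComplexConjugate

theorem norm_E_sub_one_sq (Q : ℕ) (x : ℤ) : ‖E Q x - 1‖ ^ 2 = 2 * (1 - co Q x) := by
  rw [← E_re, Complex.sq_norm, Complex.normSq_apply]
  have h := norm_E Q x
  have h2 : ‖E Q x‖ ^ 2 = 1 := by
    rw [h]
    norm_num
  rw [Complex.sq_norm, Complex.normSq_apply] at h2
  simp only [Complex.sub_re, Complex.one_re, Complex.sub_im, Complex.one_im, sub_zero]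
  nlinarith

theorem norm_E_mul_sub_one (Q h : ℕ) (x : ℤ) :
    ‖E Q ((h : ℤ) * x) - 1‖ ≤ (h : ℝ) * ‖E Q x - 1‖ := by
  induction h with
  | zero => simp [E_zero]
  | succ h ih =>
    have h1 : E Q (((h + 1 : ℕ) : ℤ) * x) - 1 =
        E Q ((h : ℤ) * x) * (E Q x - 1) + (E Q ((h : ℤ) * x) - 1) := by
      have : E Q (((h + 1 : ℕ) : ℤ) * x) = E Q ((h : ℤ) * x) * E Q x := by
        rw [← E_add]
        congr 1
        push_cast
        ring
      rw [this]
      ring
    rw [h1]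
    refine (norm_add_le _ _).trans ?_
    rw [norm_mul, norm_E, one_mul]
    push_cast
    linarith

/-- The Dirichlet kernel is large if the character is near one. -/
theorem Dir_lower {Q n : ℕ} (hn : 0 < n) {x : ℤ} (hx : 1 - co Q x ≤ 1 / (8 * (n : ℝ) ^ 2)) :
    (n : ℝ) / 2 ≤ ‖Dir Q n x‖ := by
  have hnr : (0 : ℝ) < n := by exact_mod_cast hn
  have hsq : ‖E Q x - 1‖ ^ 2 ≤ (1 / (2 * (n : ℝ))) ^ 2 := by
    rw [norm_E_sub_one_sq]
    calc 2 * (1 - co Q x) ≤ 2 * (1 / (8 * (n : ℝ) ^ 2)) := by linarith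
      _ = (1 / (2 * (n : ℝ))) ^ 2 := by
          field_simp
          norm_num
  have hle : ‖E Q x - 1‖ ≤ 1 / (2 * (n : ℝ)) :=
    (pow_le_pow_iff_left₀ (norm_nonneg _) (by positivity) (by norm_num)).1 hsq
  have hdiff : ‖Dir Q n x - n‖ ≤ (n : ℝ) / 2 := by
    have h1 : Dir Q n x - n = ∑ h ∈ range n, (E Q ((h : ℤ) * x) - 1) := by
      unfold Dir
      rw [Finset.sum_sub_distrib]
      simp
    rw [h1]
    refine (norm_sum_le _ _).trans ?_
    have h2 : ∀ h ∈ range n, ‖E Q ((h : ℤ) * x) - 1‖ ≤ (n : ℝ) * (1 / (2 * (n : ℝ))) := by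
      intro h hh
      refine (norm_E_mul_sub_one Q h x).trans ?_
      apply mul_le_mul _ hle (norm_nonneg _) hnr.le
      exact_mod_cast (mem_range.1 hh).le
    refine (Finset.sum_le_sum h2).trans (le_of_eq ?_)
    simp only [sum_const, card_range, nsmul_eq_mul]
    field_simp
  have h3 : ‖(n : ℂ)‖ = n := by simp
  have h4 := norm_sub_norm_le (n : ℂ) (Dir Q n x)
  rw [h3, norm_sub_rev] at h4
  linarith

/-- Parseval for the dilated Dirichlet kernel. -/
theorem sum_Dir_sq {Q n j : ℕ} (hQ : 0 < Q) (hj : 0 < j) (hjn : j * n ≤ Q) :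
    ∑ s ∈ range Q, ‖Dir Q n ((j : ℤ) * s)‖ ^ 2 = (Q : ℝ) * n := by
  classical
  have hpt : ∀ s : ℕ, ((‖Dir Q n ((j : ℤ) * s)‖ ^ 2 : ℝ) : ℂ) =
      ∑ h ∈ range n, ∑ h' ∈ range n, E Q ((((h : ℤ) - h') * j) * s) := by
    intro s
    push_cast
    have h1 : ((‖Dir Q n ((j : ℤ) * s)‖ : ℂ)) ^ 2 =
        Dir Q n ((j : ℤ) * s) * conj (Dir Q n ((j : ℤ) * s)) := by
      rw [Complex.mul_conj, Complex.normSq_eq_norm_sq]
      push_cast
      rfl
    rw [h1]
    unfold Dir
    rw [map_sum, Finset.sum_mul_sum]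
    apply Finset.sum_congr rfl
    intro h _
    apply Finset.sum_congr rfl
    intro h' _
    rw [conj_E, ← E_add]
    congr 1
    ring
  have hmain : ((∑ s ∈ range Q, ‖Dir Q n ((j : ℤ) * s)‖ ^ 2 : ℝ) : ℂ) = (((Q : ℝ) * n : ℝ) : ℂ) := by
    push_cast
    have h2 : ∀ s ∈ range Q, ((‖Dir Q n ((j : ℤ) * s)‖ : ℂ)) ^ 2 =
        ∑ h ∈ range n, ∑ h' ∈ range n, E Q ((((h : ℤ) - h') * j) * s) := by
      intro s _
      have := hpt s
      push_cast at this
      exact this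
    rw [Finset.sum_congr rfl h2, Finset.sum_comm]
    have h3 : ∀ h ∈ range n, ∑ s ∈ range Q, ∑ h' ∈ range n, E Q ((((h : ℤ) - h') * j) * s)
        = (Q : ℂ) := by
      intro h hh
      rw [Finset.sum_comm]
      have h4 : ∀ h' ∈ range n, ∑ s ∈ range Q, E Q ((((h : ℤ) - h') * j) * s) =
          if h' = h then (Q : ℂ) else 0 := by
        intro h' hh'
        rw [orth hQ]
        have hh1 := mem_range.1 hh
        have hh2 := mem_range.1 hh'
        have habs : |((h : ℤ) - h') * j| < Q := by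
          rw [abs_mul, abs_of_nonneg (by positivity : (0 : ℤ) ≤ j)]
          have hd : |(h : ℤ) - h'| ≤ (n : ℤ) - 1 := by
            rw [abs_le]
            constructor <;> omega
          have hj' : (0 : ℤ) < j := by exact_mod_cast hj
          have hjn' : (j : ℤ) * n ≤ Q := by exact_mod_cast hjn
          nlinarith
        rw [ind_of_abs_lt habs]
        by_cases hc : h' = h
        · subst hc
          simp
        · have hne : (h : ℤ) - h' ≠ 0 := by omega
          have hj' : j ≠ 0 := hj.ne'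
          simp [hc, hne, hj']
      rw [Finset.sum_congr rfl h4, Finset.sum_ite_eq' (range n) h, if_pos hh]
    rw [Finset.sum_congr rfl h3]
    simp
    ring
  exact_mod_cast hmain

/-- The set of grid points where the `j`-th multiple is near zero is small. -/
theorem card_U_le {Q n j : ℕ} (hQ : 0 < Q) (hn : 0 < n) (hj : 0 < j) (hjn : j * n ≤ Q) :
    (((range Q).filter (fun s : ℕ => 1 - co Q ((j : ℤ) * s) ≤ 1 / (8 * (n : ℝ) ^ 2))).card : ℝ) ≤
      4 * Q / n := by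
  classical
  have hnr : (0 : ℝ) < n := by exact_mod_cast hn
  set U := (range Q).filter (fun s : ℕ => 1 - co Q ((j : ℤ) * s) ≤ 1 / (8 * (n : ℝ) ^ 2)) with hU
  have h1 : (U.card : ℝ) * ((n : ℝ) / 2) ^ 2 ≤ ∑ s ∈ U, ‖Dir Q n ((j : ℤ) * s)‖ ^ 2 := by
    have : ∀ s ∈ U, ((n : ℝ) / 2) ^ 2 ≤ ‖Dir Q n ((j : ℤ) * s)‖ ^ 2 := by
      intro s hs
      apply pow_le_pow_left₀ (by positivity)
      exact Dir_lower hn (mem_filter.1 hs).2
    have h2 := Finset.sum_le_sum this
    simpa using h2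
  have h2 : ∑ s ∈ U, ‖Dir Q n ((j : ℤ) * s)‖ ^ 2 ≤ ∑ s ∈ range Q, ‖Dir Q n ((j : ℤ) * s)‖ ^ 2 :=
    Finset.sum_le_sum_of_subset_of_nonneg (Finset.filter_subset _ _) (fun _ _ _ => by positivity)
  rw [sum_Dir_sq hQ hj hjn] at h2
  have h3 := h1.trans h2
  rw [le_div_iff₀ hnr]
  have h4 : (U.card : ℝ) * n * n ≤ 4 * Q * n := by
    nlinarith
  exact le_of_mul_le_mul_right h4 hnr

end Vale.Agent.Lib.P110
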