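import Vale.Agent.Lib.P110.Main

/-! A zero free polynomial on the circle has a differentiable polar phase. -/

namespace Vale.Agent.Lib.P110

open Finset

/-- The derivative of the polynomial on the circle. -/
noncomputable def circleDeriv (a : ℕ → ℝ) (N : ℕ) (θ : ℝ) : ℂ :=
  ∑ k ∈ range N, (a k : ℂ) * (Complex.I * k * Complex.exp (Complex.I * k * θ))

theorem hasDerivAt_circleValue (a : ℕ → ℝ) (N : ℕ) (θ : ℝ) :
    HasDerivAt (circleValue a N) (circleDeriv a N θ) θ := by
  unfold circleValue circleDeriv
  have h : ∀ k ∈ range N, HasDerivAt (fun θ : ℝ => (a k : ℂ) * Complex.exp (Complex.I * k * θ))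
      ((a k : ℂ) * (Complex.I * k * Complex.exp (Complex.I * k * θ))) θ := by
    intro k _
    apply HasDerivAt.const_mul
    have h1 : HasDerivAt (fun θ : ℝ => Complex.I * k * (θ : ℂ)) (Complex.I * k) θ := by
      have := (hasDerivAt_id θ).ofReal_comp.const_mul (Complex.I * (k : ℂ))
      simpa using this
    exact h1.cexp.congr_deriv (by ring)
  have := HasDerivAt.fun_sum h
  exact this

theorem continuous_circleValue (a : ℕ → ℝ) (N : ℕ) : Continuous (circleValue a N) :=
  continuous_iff_continuousAt.2 fun θ => (hasDerivAt_circleValue a N θ).continuousAt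

theorem continuous_circleDeriv (a : ℕ → ℝ) (N : ℕ) : Continuous (circleDeriv a N) := by
  unfold circleDeriv
  fun_prop

/-- Existence of a differentiable polar phase. -/
theorem exists_phase (a : ℕ → ℝ) (N : ℕ) (h0 : ∀ θ : ℝ, circleValue a N θ ≠ 0) :
    ∃ β : ℝ → ℝ, Differentiable ℝ β ∧ ∀ θ : ℝ, circleValue a N θ =
      (‖circleValue a N θ‖ : ℂ) * Complex.exp (Complex.I * (β θ : ℂ)) := by
  set F := circleValue a N with hF
  set F' := circleDeriv a N with hF'
  have hFc : Continuous F := continuous_circleValue a N
  have hF'c : Continuous F' := continuous_circleDeriv a N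
  have hqc : Continuous (fun t => F' t / F t) := hF'c.div hFc h0
  set G : ℝ → ℂ := fun θ => ∫ t in (0 : ℝ)..θ, F' t / F t with hG
  have hGd : ∀ θ, HasDerivAt G (F' θ / F θ) θ := fun θ =>
    intervalIntegral.integral_hasDerivAt_right (hqc.intervalIntegrable _ _)
      hqc.stronglyMeasurable.stronglyMeasurableAtFilter hqc.continuousAt
  have hG0 : G 0 = 0 := by simp [hG]
  -- the quotient is constant
  have hconst : ∀ θ, F θ * Complex.exp (-G θ) = F 0 := by
    intro θ
    have hder : ∀ x, HasDerivAt (fun x => F x * Complex.exp (-G x)) 0 x := by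
      intro x
      have h1 := hasDerivAt_circleValue a N x
      have h2 := (hGd x).neg.cexp
      refine (h1.fun_mul h2).congr_deriv ?_
      have hne := h0 x
      have hx : circleDeriv a N x = F' x := rfl
      have hy : circleValue a N x = F x := rfl
      rw [hx, hy]
      have hne' : F x ≠ 0 := hne
      field_simp
      ring
    have hd : Differentiable ℝ (fun x => F x * Complex.exp (-G x)) :=
      fun x => (hder x).differentiableAt
    have := is_const_of_deriv_eq_zero hd (fun x => (hder x).deriv) θ 0
    rw [this, hG0]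
    simp
  have hrep : ∀ θ, F θ = F 0 * Complex.exp (G θ) := by
    intro θ
    rw [← hconst θ, mul_assoc, ← Complex.exp_add]
    simp
  set α : ℝ := Complex.arg (F 0) with hα
  refine ⟨fun θ => α + (G θ).im, ?_, ?_⟩
  · intro θ
    have h1 : DifferentiableAt ℝ (fun θ => (G θ).im) θ :=
      Complex.imCLM.differentiableAt.comp θ (hGd θ).differentiableAt
    exact h1.const_add α
  · intro θ
    have hnorm : ‖F θ‖ = ‖F 0‖ * Real.exp (G θ).re := by
      rw [hrep θ, norm_mul, Complex.norm_exp]
    have hF0 : F 0 = (‖F 0‖ : ℂ) * Complex.exp (Complex.I * (α : ℂ)) := by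
      have := Complex.norm_mul_exp_arg_mul_I (F 0)
      rw [hα, mul_comm Complex.I]
      exact this.symm
    have hsplit : Complex.exp (G θ) =
        (Real.exp (G θ).re : ℂ) * Complex.exp (Complex.I * ((G θ).im : ℂ)) := by
      rw [Complex.ofReal_exp, ← Complex.exp_add]
      congr 1
      rw [mul_comm Complex.I]
      exact (Complex.re_add_im _).symm
    rw [hnorm]
    conv_lhs => rw [hrep θ, hF0, hsplit]
    push_cast
    rw [mul_add, Complex.exp_add]
    ring

end Vale.Agent.Lib.P110
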