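import Vale.Agent.Lib.P110.Core

/-! Choice of parameters and reduction of the statement on the circle to the grid statement. -/

namespace Vale.Agent.Lib.P110

open Finset

/-- The value on the circle of the polynomial with coefficients `a`, of length `N`. -/
noncomputable def circleValue (a : ℕ → ℝ) (N : ℕ) (θ : ℝ) : ℂ :=
  ∑ k ∈ range N, (a k : ℂ) * Complex.exp (Complex.I * k * θ)

theorem F_eq_circleValue (Q : ℕ) (a : ℕ → ℝ) (N : ℕ) (n : ℤ) :
    F a N Q n = circleValue a N (2 * Real.pi * n / Q) := by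
  unfold F circleValue
  apply Finset.sum_congr rfl
  intro k _
  unfold E
  congr 2
  push_cast
  ring

theorem kk_eq_deriv {Q : ℕ} (hQ : 0 < Q) (β : ℝ → ℝ) (hβ : Differentiable ℝ β) (u : ℕ) :
    ∃ ζ ∈ Set.Ioo (2 * Real.pi * u / Q) (2 * Real.pi * (u + 1 : ℕ) / Q),
      kk Q (fun s => β (2 * Real.pi * s / Q)) u = deriv β ζ := by
  have hQr : (0 : ℝ) < Q := by exact_mod_cast hQ
  have hlt : 2 * Real.pi * u / Q < 2 * Real.pi * (u + 1 : ℕ) / Q := by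
    apply div_lt_div_of_pos_right _ hQr
    push_cast
    nlinarith [Real.pi_pos]
  obtain ⟨c, hc, hc2⟩ := exists_deriv_eq_slope β hlt hβ.continuous.continuousOn
    hβ.differentiableOn
  refine ⟨c, hc, ?_⟩
  rw [hc2]
  unfold kk
  have hd : 2 * Real.pi * ((u + 1 : ℕ) : ℝ) / Q - 2 * Real.pi * u / Q = 2 * Real.pi / Q := by
    push_cast
    ring
  rw [hd]
  have hpi := Real.pi_pos
  field_simp

theorem variation_sum {Q N : ℕ} (hQ : 0 < Q) (β : ℝ → ℝ) (hβ : Differentiable ℝ β) {M : ℝ}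
    (hM : 0 ≤ M)
    (hvar : eVariationOn (deriv β) (Set.Icc 0 (2 * Real.pi)) ≤ ENNReal.ofReal (M * N)) :
    ∑ u ∈ range (Q - 1),
      |kk Q (fun s => β (2 * Real.pi * s / Q)) (u + 1) - kk Q (fun s => β (2 * Real.pi * s / Q)) u|
      ≤ M * N := by
  classical
  have hQr : (0 : ℝ) < Q := by exact_mod_cast hQ
  have hpi := Real.pi_pos
  choose ζ hζ hζ2 using kk_eq_deriv hQ β hβ
  set u' : ℕ → ℝ := fun i => if i < Q then ζ i else 2 * Real.pi with hu'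
  have hgrid : ∀ i : ℕ, i ≤ Q → 2 * Real.pi * (i : ℝ) / Q ≤ 2 * Real.pi := by
    intro i hi
    rw [div_le_iff₀ hQr]
    have : (i : ℝ) ≤ Q := by exact_mod_cast hi
    nlinarith
  have hmono : Monotone u' := by
    apply monotone_nat_of_le_succ
    intro i
    simp only [hu']
    by_cases h1 : i + 1 < Q
    · rw [if_pos h1, if_pos (by omega)]
      exact (hζ i).2.le.trans (hζ (i + 1)).1.le
    · rw [if_neg h1]
      by_cases h2 : i < Q
      · rw [if_pos h2]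
        exact (hζ i).2.le.trans (hgrid (i + 1) (by omega))
      · rw [if_neg h2]
  have hmem : ∀ i, u' i ∈ Set.Icc 0 (2 * Real.pi) := by
    intro i
    simp only [hu']
    by_cases h : i < Q
    · rw [if_pos h]
      constructor
      · refine le_trans ?_ (hζ i).1.le
        positivity
      · exact (hζ i).2.le.trans (hgrid (i + 1) (by omega))
    · rw [if_neg h]
      exact ⟨by positivity, le_rfl⟩
  have h1 := eVariationOn.sum_le (f := deriv β) (n := Q - 1) hmono hmem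
  have h2 : ∑ i ∈ range (Q - 1), edist (deriv β (u' (i + 1))) (deriv β (u' i)) =
      ENNReal.ofReal (∑ u ∈ range (Q - 1),
        |kk Q (fun s => β (2 * Real.pi * s / Q)) (u + 1) -
          kk Q (fun s => β (2 * Real.pi * s / Q)) u|) := by
    rw [ENNReal.ofReal_sum_of_nonneg (fun _ _ => abs_nonneg _)]
    apply Finset.sum_congr rfl
    intro i hi
    have hi' := mem_range.1 hi
    simp only [hu']
    rw [if_pos (by omega), if_pos (by omega), edist_dist, Real.dist_eq, hζ2, hζ2]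
  rw [h2] at h1
  have h3 := h1.trans hvar
  exact (ENNReal.ofReal_le_ofReal_iff (by positivity)).1 h3

/-- The error of the spectral approximation is small for suitable parameters. -/
theorem errE_le {Q L W l0 c0 M0 N : ℕ} {ε M : ℝ} (hQ : 0 < Q) (hL0 : 0 < L) (hW0 : 0 < W)
    (hLW : Q = L * W) (hc0 : 0 < c0) (hl0 : l0 = 768 * W * c0) (hM0 : M ≤ M0) (hM : 0 ≤ M)
    (hNQ : N ≤ Q) (hε : ε = (1 / (24 * (c0 : ℝ))) / 20)
    (hQbig : 2304 * c0 * (l0 * (2 * l0 * M0 + 1)) ≤ Q) :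
    errE Q L ε (M * N) l0 ≤ 1 / (24 * (c0 : ℝ)) := by
  have hQr : (0 : ℝ) < Q := by exact_mod_cast hQ
  have hLr : (0 : ℝ) < L := by exact_mod_cast hL0
  have hWr : (0 : ℝ) < W := by exact_mod_cast hW0
  have hcr : (0 : ℝ) < c0 := by exact_mod_cast hc0
  have hNQr : (N : ℝ) ≤ Q := by exact_mod_cast hNQ
  have hl0r : (l0 : ℝ) = 768 * W * c0 := by
    rw [hl0]
    push_cast
    ring
  have hl0pos : (0 : ℝ) < l0 := by
    rw [hl0r]
    positivity
  have hM0n : (0 : ℝ) ≤ M0 := by positivity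
  set X : ℝ := (l0 : ℝ) * (2 * l0 * M0 + 1) with hX
  have hXn : 0 ≤ X := by positivity
  have hQbigr : 2304 * (c0 : ℝ) * X ≤ Q := by
    rw [hX]
    exact_mod_cast hQbig
  have hQL : (Q : ℝ) / L = W := by
    rw [hLW]
    push_cast
    field_simp
  have hVle : M * N ≤ (M0 : ℝ) * Q := mul_le_mul hM0 hNQr (by positivity) hM0n
  have hin : (l0 : ℝ) * (2 * l0 * (M * N) + (Q : ℝ) / 2) ≤ (Q : ℝ) * X := by
    rw [hX]
    have h1 : 2 * (l0 : ℝ) * (M * N) ≤ 2 * l0 * ((M0 : ℝ) * Q) :=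
      mul_le_mul_of_nonneg_left hVle (by positivity)
    have h2 : (l0 : ℝ) * (2 * l0 * (M * N) + (Q : ℝ) / 2) ≤
        (l0 : ℝ) * (2 * l0 * ((M0 : ℝ) * Q) + Q) := by
      apply mul_le_mul_of_nonneg_left _ hl0pos.le
      linarith
    refine h2.trans (le_of_eq ?_)
    ring
  have ht2 : 4 * ((2 * Real.pi / (Q : ℝ) ^ 2) * ((l0 : ℝ) * (2 * l0 * (M * N) + (Q : ℝ) / 2))) ≤
      32 * X / Q := by
    have hc : 0 ≤ 2 * Real.pi / (Q : ℝ) ^ 2 := by positivity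
    have h1 := mul_le_mul_of_nonneg_left hin hc
    have h2 : (2 * Real.pi / (Q : ℝ) ^ 2) * ((Q : ℝ) * X) = 2 * Real.pi * X / Q := by
      field_simp
    rw [h2] at h1
    have h3 : 2 * Real.pi * X / Q ≤ 8 * X / Q := by
      apply div_le_div_of_nonneg_right _ hQr.le
      nlinarith [Real.pi_le_four]
    calc _ ≤ 4 * (8 * X / Q) := by linarith
      _ = 32 * X / Q := by ring
  have ht3 : 16 * ((l0 : ℝ) / Q) ≤ 16 * X / Q := by
    rw [← mul_div_assoc]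
    apply div_le_div_of_nonneg_right _ hQr.le
    have : (l0 : ℝ) ≤ X := by
      rw [hX]
      have : (1 : ℝ) ≤ 2 * l0 * M0 + 1 := by
        have : (0 : ℝ) ≤ 2 * l0 * M0 := by positivity
        linarith
      nlinarith
    linarith
  have ht23 : 48 * X / Q ≤ 1 / (48 * (c0 : ℝ)) := by
    rw [div_le_div_iff₀ hQr (by positivity)]
    nlinarith
  have ht4 : 8 * (((Q : ℝ) / L) / (l0 + 1)) ≤ 1 / (96 * (c0 : ℝ)) := by
    rw [hQL]
    have hl1 : (0 : ℝ) < (l0 : ℝ) + 1 := by positivity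
    rw [← mul_div_assoc, div_le_div_iff₀ hl1 (by positivity)]
    rw [hl0r]
    have : (0 : ℝ) < (W : ℝ) * c0 := by positivity
    nlinarith
  unfold errE
  rw [hε]
  have h48 : 32 * X / Q + 16 * X / Q = 48 * X / Q := by ring
  have hend2 : 5 * (1 / (24 * (c0 : ℝ)) / 20) + 1 / (48 * (c0 : ℝ)) + 1 / (96 * (c0 : ℝ)) =
      1 / (24 * (c0 : ℝ)) := by
    field_simp
    norm_num
  linarith

theorem errE_nonneg (Q L : ℕ) {ε V : ℝ} (hε : 0 ≤ ε) (hV : 0 ≤ V) (l0 : ℕ) :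
    0 ≤ errE Q L ε V l0 := by
  unfold errE
  positivity

theorem numeric_first {J W n c0 N L : ℕ} {e : ℝ}
    (hJ0 : 0 < J)
    (hc0 : c0 = W * (8 * n ^ 2)) (hc0pos : 0 < c0)
    (hN0 : 0 < N) (hL0 : 0 < L) (hLN : L ≤ N)
    (hLbig : 16 * J * c0 ≤ L) (he : e ≤ 1 / (24 * (c0 : ℝ))) :
    (W : ℝ) * ((6 * e + 2 * J / N + 2 * J / L) * (8 * (n : ℝ) ^ 2)) ≤ 1 / 2 := by
  have hJr : (0 : ℝ) < J := by exact_mod_cast hJ0
  have hNr : (0 : ℝ) < N := by exact_mod_cast hN0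
  have hLr : (0 : ℝ) < L := by exact_mod_cast hL0
  have hcr : (0 : ℝ) < c0 := by exact_mod_cast hc0pos
  have hcc : (c0 : ℝ) = (W : ℝ) * (8 * (n : ℝ) ^ 2) := by
    rw [hc0]
    push_cast
    ring
  have hLNle : (L : ℝ) ≤ N := by exact_mod_cast hLN
  have hLbigr : 16 * (J : ℝ) * c0 ≤ L := by exact_mod_cast hLbig
  have hJc : 0 < (J : ℝ) * c0 := by positivity
  have h0 : (W : ℝ) * ((6 * e + 2 * J / N + 2 * J / L) * (8 * (n : ℝ) ^ 2)) =
      (c0 : ℝ) * (6 * e + 2 * J / N + 2 * J / L) := by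
    rw [hcc]
    ring
  rw [h0]
  have h1 : (c0 : ℝ) * (6 * e) ≤ 1 / 4 := by
    have h2 : (c0 : ℝ) * e ≤ (c0 : ℝ) * (1 / (24 * (c0 : ℝ))) :=
      mul_le_mul_of_nonneg_left he hcr.le
    have h3 : (c0 : ℝ) * (1 / (24 * (c0 : ℝ))) = 1 / 24 := by
      field_simp
    linarith
  have h2 : (c0 : ℝ) * (2 * J / L) ≤ 1 / 8 := by
    have h3 : (c0 : ℝ) * (2 * J / L) = 2 * ((J : ℝ) * c0) / L := by ring
    rw [h3, div_le_iff₀ hLr]
    linarith
  have h3 : (c0 : ℝ) * (2 * J / N) ≤ 1 / 8 := by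
    have h4 : (c0 : ℝ) * (2 * J / N) = 2 * ((J : ℝ) * c0) / N := by ring
    rw [h4, div_le_iff₀ hNr]
    linarith
  have h5 : (c0 : ℝ) * (6 * e + 2 * J / N + 2 * J / L) =
      (c0 : ℝ) * (6 * e) + (c0 : ℝ) * (2 * J / N) + (c0 : ℝ) * (2 * J / L) := by
    ring
  rw [h5]
  linarith

theorem numeric_second {R K c0 M1 M0 N L : ℕ} {e M : ℝ}
    (hRK : R = K) (hK0 : 0 < K) (hc0pos : 0 < c0) (hKc : K ≤ c0)
    (hM1 : M1 = 64 * (M0 + 1)) (hM0 : M ≤ M0) (hM : 0 ≤ M)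
    (hN0 : 0 < N) (hL0 : 0 < L) (hLK : L * K ≤ N) (hNL : N ≤ 2 * K * L) (hL2 : 2 ≤ L)
    (he0 : 0 ≤ e) (he : e ≤ 1 / (24 * (c0 : ℝ))) :
    ((3 * R + 2 * R / L + 2 * (M * N) / L) / M1) * ((L : ℝ) / N + e) ≤ 1 / 8 := by
  have hKr : (0 : ℝ) < K := by exact_mod_cast hK0
  have hNr : (0 : ℝ) < N := by exact_mod_cast hN0
  have hLr : (0 : ℝ) < L := by exact_mod_cast hL0
  have hcr : (0 : ℝ) < c0 := by exact_mod_cast hc0pos
  have hKcr : (K : ℝ) ≤ c0 := by exact_mod_cast hKc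
  have hLKr : (L : ℝ) * K ≤ N := by exact_mod_cast hLK
  have hNLr : (N : ℝ) ≤ 2 * K * L := by exact_mod_cast hNL
  have hL2r : (2 : ℝ) ≤ L := by exact_mod_cast hL2
  have hM0n : (0 : ℝ) ≤ M0 := by positivity
  have hRr : (R : ℝ) = K := by exact_mod_cast hRK
  rw [hRr]
  have hM1r : (M1 : ℝ) = 64 * ((M0 : ℝ) + 1) := by
    rw [hM1]
    push_cast
    ring
  have hA : 3 * (K : ℝ) + 2 * K / L + 2 * (M * N) / L ≤ 4 * K * (1 + M) := by
    have h1 : 2 * (K : ℝ) / L ≤ K := by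
      rw [div_le_iff₀ hLr]
      nlinarith
    have h2 : 2 * (M * N) / L ≤ 4 * K * M := by
      rw [div_le_iff₀ hLr]
      have h3 : M * N ≤ M * (2 * K * L) := mul_le_mul_of_nonneg_left hNLr hM
      linarith
    have h3 : 4 * (K : ℝ) * (1 + M) = 4 * K + 4 * K * M := by ring
    rw [h3]
    linarith
  have hB : (L : ℝ) / N + e ≤ 2 / K := by
    have h1 : (L : ℝ) / N ≤ 1 / K := by
      rw [div_le_div_iff₀ hNr hKr]
      linarith
    have h2 : e ≤ 1 / K := by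
      refine he.trans ?_
      rw [div_le_div_iff₀ (by positivity) hKr]
      linarith
    have h3 : 2 / (K : ℝ) = 1 / K + 1 / K := by ring
    rw [h3]
    linarith
  have hBn : 0 ≤ (L : ℝ) / N + e := by positivity
  have hM1pos : (0 : ℝ) < M1 := by
    rw [hM1r]
    positivity
  calc ((3 * (K : ℝ) + 2 * K / L + 2 * (M * N) / L) / M1) * ((L : ℝ) / N + e)
      ≤ ((4 * K * (1 + M)) / M1) * (2 / K) := by
        apply mul_le_mul _ hB hBn (by positivity)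
        exact div_le_div_of_nonneg_right hA hM1pos.le
    _ = 8 * (1 + M) / M1 := by
        field_simp
        ring
    _ ≤ 1 / 8 := by
        rw [div_le_div_iff₀ hM1pos (by norm_num), hM1r]
        linarith

/-- The bookkeeping of sizes for the window length. -/
theorem sizes {N K R B : ℕ} (hK0 : 0 < K) (hR0 : 0 < R) (hB0 : 0 < B)
    (hN : K * R * B ≤ N) :
    B ≤ N / (K * R) ∧ (R * (N / (K * R))) * K ≤ N ∧ N ≤ 2 * K * (R * (N / (K * R))) := by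
  have hKR : 0 < K * R := Nat.mul_pos hK0 hR0
  have h1 : B ≤ N / (K * R) := by
    rw [Nat.le_div_iff_mul_le hKR, mul_comm]
    exact hN
  refine ⟨h1, ?_, ?_⟩
  · have := Nat.div_mul_le_self N (K * R)
    calc R * (N / (K * R)) * K = N / (K * R) * (K * R) := by ring
      _ ≤ N := this
  · have h2 := Nat.lt_mul_div_succ N hKR
    have h3 : 1 ≤ N / (K * R) := le_trans hB0 h1
    calc N ≤ K * R * (N / (K * R) + 1) := h2.le
      _ ≤ K * R * (N / (K * R) + N / (K * R)) := by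
          apply Nat.mul_le_mul_left
          omega
      _ = 2 * K * (R * (N / (K * R))) := by ring

/-- Main theorem: for each `M`, a flat polynomial with `±1` coefficients, of large length `N`,
cannot have a phase whose derivative has total variation at most `M N`. -/
theorem no_flat (M : ℝ) (hM : 0 ≤ M) :
    ∃ ε : ℝ, 0 < ε ∧ ∃ N₀ : ℕ, ∀ N ≥ N₀, ∀ a : ℕ → ℝ, (∀ k < N, a k = 1 ∨ a k = -1) →
      ∀ β : ℝ → ℝ, Differentiable ℝ β →
        (∀ θ : ℝ, circleValue a N θ =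
          (‖circleValue a N θ‖ : ℂ) * Complex.exp (Complex.I * (β θ : ℂ))) →
        (∀ θ : ℝ, |‖circleValue a N θ‖ ^ 2 / N - 1| ≤ ε) →
        eVariationOn (deriv β) (Set.Icc 0 (2 * Real.pi)) ≤ ENNReal.ofReal (M * N) → False := by
  obtain ⟨M0, hM0⟩ : ∃ M0 : ℕ, M ≤ M0 := ⟨⌈M⌉₊, Nat.le_ceil M⟩
  obtain ⟨M1, hM1⟩ : ∃ M1 : ℕ, M1 = 64 * (M0 + 1) := ⟨_, rfl⟩
  have hM1pos : 0 < M1 := by omega
  obtain ⟨J, hJ⟩ : ∃ J : ℕ, J = 12 ^ M1 := ⟨_, rfl⟩
  have hJ0 : 0 < J := by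
    rw [hJ]
    positivity
  obtain ⟨R, hR⟩ : ∃ R : ℕ, R = 12 * J := ⟨_, rfl⟩
  obtain ⟨n, hn⟩ : ∃ n : ℕ, n = 32 * J := ⟨_, rfl⟩
  obtain ⟨K, hK⟩ : ∃ K : ℕ, K = R := ⟨_, rfl⟩
  obtain ⟨W, hW⟩ : ∃ W : ℕ, W = 4 * K := ⟨_, rfl⟩
  obtain ⟨c0, hc0⟩ : ∃ c0 : ℕ, c0 = W * (8 * n ^ 2) := ⟨_, rfl⟩
  have hR0 : 0 < R := by omega
  have hK0 : 0 < K := by omega
  have hW0 : 0 < W := by omega
  have hn0 : 0 < n := by omega
  have hc0pos : 0 < c0 := by
    rw [hc0]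
    positivity
  have hKc : K ≤ c0 := by
    rw [hc0, hW]
    have h1 : 1 ≤ 8 * n ^ 2 := by
      have : 0 < n ^ 2 := by positivity
      omega
    calc K ≤ 4 * K := by omega
      _ = 4 * K * 1 := by ring
      _ ≤ 4 * K * (8 * n ^ 2) := Nat.mul_le_mul_left _ h1
  obtain ⟨l0, hl0⟩ : ∃ l0 : ℕ, l0 = 768 * W * c0 := ⟨_, rfl⟩
  obtain ⟨C3, hC3⟩ : ∃ C3 : ℕ, C3 = 2304 * c0 * (l0 * (2 * l0 * M0 + 1)) := ⟨_, rfl⟩
  have hc0r : (0 : ℝ) < c0 := by exact_mod_cast hc0pos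
  set ε : ℝ := (1 / (24 * (c0 : ℝ))) / 20 with hε
  have hε0 : 0 < ε := by positivity
  have hε1 : ε ≤ 1 := by
    have h1 : (1 : ℝ) ≤ c0 := by exact_mod_cast hc0pos
    have h2 : 1 / (24 * (c0 : ℝ)) ≤ 1 := by
      rw [div_le_one (by positivity)]
      linarith
    rw [hε]
    linarith
  refine ⟨ε, hε0, K * R * (16 * J * c0) + 32 * J * J + C3 + 1, ?_⟩
  intro N hN a ha β hβ hpolar hflat hvar
  have hN1 : K * R * (16 * J * c0) ≤ N := by omega
  have hN2 : 32 * J * J ≤ N := by omega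
  have hN3 : C3 ≤ N := by omega
  have hN0 : 0 < N := by omega
  have hB0 : 0 < 16 * J * c0 := by positivity
  obtain ⟨hL1, hLK, hNL⟩ := sizes hK0 hR0 hB0 hN1
  obtain ⟨L', hL'⟩ : ∃ L' : ℕ, L' = N / (K * R) := ⟨_, rfl⟩
  rw [← hL'] at hL1 hLK hNL
  obtain ⟨L, hL⟩ : ∃ L : ℕ, L = R * L' := ⟨_, rfl⟩
  rw [← hL] at hLK hNL
  have hL'pos : 0 < L' := lt_of_lt_of_le hB0 hL1
  have hL0 : 0 < L := by
    rw [hL]
    positivity
  have hL'L : L' ≤ L := by
    rw [hL]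
    exact Nat.le_mul_of_pos_left _ hR0
  have hLbig : 16 * J * c0 ≤ L := hL1.trans hL'L
  have hL2 : 2 ≤ L := by
    have h1 : 1 ≤ J * c0 := Nat.mul_pos hJ0 hc0pos
    have h2 : 16 * J * c0 = 16 * (J * c0) := by ring
    omega
  have hLN : L ≤ N := le_trans (Nat.le_mul_of_pos_right _ hK0) hLK
  obtain ⟨Q, hQdef⟩ : ∃ Q : ℕ, Q = L * W := ⟨_, rfl⟩
  have hQ : 0 < Q := by
    rw [hQdef]
    positivity
  have hRA : Q = R * (L' * W) := by
    rw [hQdef, hL]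
    ring
  have hA0 : 0 < L' * W := by positivity
  have hQ2N : 2 * N ≤ Q := by
    rw [hQdef, hW]
    calc 2 * N ≤ 2 * (2 * K * L) := Nat.mul_le_mul_left _ hNL
      _ = L * (4 * K) := by ring
  have hNQ : N ≤ Q := by omega
  have hLQ : L ≤ Q := hLN.trans hNQ
  have hJJ : 2 * J ≤ N := by
    have h1 : 1 * J ≤ J * J := Nat.mul_le_mul_right _ hJ0
    have h2 : 32 * J * J = 32 * (J * J) := by ring
    omega
  have hJn : J * n ≤ Q := by
    rw [hn]
    have : J * (32 * J) = 32 * J * J := by ring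
    omega
  have hNj : ∀ j ≤ 2 * J, N + j ≤ Q := fun j hj => by omega
  -- samples
  set b : ℕ → ℝ := fun s => β (2 * Real.pi * s / Q) with hb
  have hbF : ∀ s : ℕ, F a N Q (s : ℤ) =
      (‖F a N Q (s : ℤ)‖ : ℂ) * Complex.exp (Complex.I * (b s : ℂ)) := by
    intro s
    rw [F_eq_circleValue]
    have : ((s : ℤ) : ℝ) = (s : ℝ) := Int.cast_natCast s
    rw [this]
    exact hpolar _
  have hNr : (0 : ℝ) < N := by exact_mod_cast hN0
  have hflat' : ∀ n : ℤ, |‖F a N Q n‖ ^ 2 - N| ≤ ε * N := by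
    intro n
    rw [F_eq_circleValue]
    have h1 := hflat (2 * Real.pi * n / Q)
    have h2 : ‖circleValue a N (2 * Real.pi * n / Q)‖ ^ 2 - N =
        (‖circleValue a N (2 * Real.pi * n / Q)‖ ^ 2 / N - 1) * N := by
      field_simp
    rw [h2, abs_mul, abs_of_pos hNr]
    exact mul_le_mul_of_nonneg_right h1 hNr.le
  have hV := variation_sum (N := N) hQ β hβ hM hvar
  have hE : ∀ (τ : ℤ) (j : ℕ), j ≤ 2 * J →
      |Cor a N Q L j τ -
        (N / (Q : ℝ)) * ∑ s ∈ range Q, T Q L (kt Q b s - τ) * co Q ((j : ℤ) * s)|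
        ≤ errE Q L ε (M * N) l0 * N := by
    intro τ j hj
    exact spectral hQ hN0 hL0 hLQ hε0.le hε1 b hbF hflat' (M * N) hV l0 τ j (hNj j hj)
  have hQbig : 2304 * c0 * (l0 * (2 * l0 * M0 + 1)) ≤ Q := by
    rw [← hC3]
    omega
  have he := errE_le hQ hL0 hW0 hQdef hc0pos hl0 hM0 hM hNQ hε hQbig
  have he0 : 0 ≤ errE Q L ε (M * N) l0 :=
    errE_nonneg Q L hε0.le (by positivity) l0
  have hcore := core_ineq hQ hN0 hL0 hW0 hA0 hQdef hRA hM1pos hJ hR hn hNQ hJn ha hV he0 hE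
  have hP1 := numeric_first (W := W) (n := n) hJ0 hc0 hc0pos hN0 hL0 hLN hLbig he
  have hP2 := numeric_second (R := R) (K := K) (M1 := M1) (M0 := M0) (N := N) (L := L) hK.symm
    hK0 hc0pos hKc hM1 hM0 hM hN0 hL0 hLK hNL hL2 he0 he
  linarith

end Vale.Agent.Lib.P110
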