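import Vale.Agent.Lib.P110.Approx

/-! Local phase behaviour from bounded variation of the sampled group delay. -/

namespace Vale.Agent.Lib.P110

open Finset
open scoped ComplexConjugate

/-- Discrete phase derivative. -/
noncomputable def kk (Q : ℕ) (b : ℕ → ℝ) (s : ℕ) : ℝ :=
  ((Q : ℝ) / (2 * Real.pi)) * (b (s + 1) - b s)

/-- Rounded phase derivative. -/
noncomputable def kt (Q : ℕ) (b : ℕ → ℝ) (s : ℕ) : ℤ := round (kk Q b s)

/-- Local variation of the phase derivative around `s`. -/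
noncomputable def Var (Q : ℕ) (b : ℕ → ℝ) (l0 s : ℕ) : ℝ :=
  ∑ u ∈ Ico (s - l0) (s + l0), |kk Q b (u + 1) - kk Q b u|

theorem Var_nonneg (Q : ℕ) (b : ℕ → ℝ) (l0 s : ℕ) : 0 ≤ Var Q b l0 s :=
  Finset.sum_nonneg fun _ _ => abs_nonneg _

theorem b_increment {Q : ℕ} (hQ : 0 < Q) (b : ℕ → ℝ) {s s' : ℕ} (h : s ≤ s') :
    b s' - b s = (2 * Real.pi / Q) * ∑ v ∈ Ico s s', kk Q b v := by
  have hQr : (Q : ℝ) ≠ 0 := by exact_mod_cast hQ.ne'
  have hpi := Real.pi_ne_zero
  unfold kk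
  rw [← Finset.mul_sum, ← mul_assoc]
  have h1 : 2 * Real.pi / (Q : ℝ) * ((Q : ℝ) / (2 * Real.pi)) = 1 := by
    field_simp
  rw [h1, one_mul, Finset.sum_Ico_eq_sum_range]
  have := Finset.sum_range_sub (fun m : ℕ => b (s + m)) (s' - s)
  simp only [add_zero] at this
  rw [Nat.add_sub_cancel' h] at this
  rw [← this]
  apply Finset.sum_congr rfl
  intro x _
  rw [Nat.add_assoc]

theorem kk_diff_le (Q : ℕ) (b : ℕ → ℝ) {u u' : ℕ} (h : u ≤ u') :
    |kk Q b u' - kk Q b u| ≤ ∑ w ∈ Ico u u', |kk Q b (w + 1) - kk Q b w| := by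
  have h1 : kk Q b u' - kk Q b u = ∑ w ∈ Ico u u', (kk Q b (w + 1) - kk Q b w) := by
    rw [Finset.sum_Ico_eq_sum_range]
    have := Finset.sum_range_sub (fun m : ℕ => kk Q b (u + m)) (u' - u)
    simp only [add_zero] at this
    rw [Nat.add_sub_cancel' h] at this
    rw [← this]
    apply Finset.sum_congr rfl
    intro x _
    rw [Nat.add_assoc]
  rw [h1]
  exact Finset.abs_sum_le_sum_abs _ _

theorem kk_near {Q : ℕ} (b : ℕ → ℝ) {l0 s v : ℕ} (h1 : s - l0 ≤ v) (h2 : v ≤ s + l0) :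
    |kk Q b v - kt Q b s| ≤ Var Q b l0 s + 1 / 2 := by
  have hr : |kk Q b s - kt Q b s| ≤ 1 / 2 := abs_sub_round _
  have hv : |kk Q b v - kk Q b s| ≤ Var Q b l0 s := by
    unfold Var
    rcases le_total v s with h | h
    · rw [abs_sub_comm]
      refine (kk_diff_le Q b h).trans ?_
      apply Finset.sum_le_sum_of_subset_of_nonneg
      · apply Finset.Ico_subset_Ico h1
        omega
      · intro _ _ _
        exact abs_nonneg _
    · refine (kk_diff_le Q b h).trans ?_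
      apply Finset.sum_le_sum_of_subset_of_nonneg
      · apply Finset.Ico_subset_Ico (by omega) h2
      · intro _ _ _
        exact abs_nonneg _
  calc |kk Q b v - kt Q b s| = |(kk Q b v - kk Q b s) + (kk Q b s - kt Q b s)| := by
        congr 1
        ring
    _ ≤ |kk Q b v - kk Q b s| + |kk Q b s - kt Q b s| := abs_add_le _ _
    _ ≤ _ := add_le_add hv hr

/-- The phase is nearly linear near `s`. -/
theorem phase_linear {Q : ℕ} (hQ : 0 < Q) (b : ℕ → ℝ) {l0 s s' : ℕ} (h1 : s - l0 ≤ s')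
    (h2 : s' ≤ s + l0) (hl : s ≤ s' ∨ l0 ≤ s) :
    |b s' - b s - (2 * Real.pi / Q) * ((kt Q b s : ℝ) * ((s' : ℝ) - s))| ≤
      (2 * Real.pi / Q) * ((l0 : ℝ) * (Var Q b l0 s + 1 / 2)) := by
  have hQr : (0 : ℝ) < Q := by exact_mod_cast hQ
  have hc : 0 < 2 * Real.pi / (Q : ℝ) := by positivity
  have hV := Var_nonneg Q b l0 s
  rcases le_total s s' with h | h
  · rw [b_increment hQ b h]
    have hcard : (s' : ℝ) - s = ∑ _v ∈ Ico s s', (1 : ℝ) := by
      simp only [sum_const, Nat.card_Ico, nsmul_eq_mul, mul_one]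
      rw [Nat.cast_sub h]
    rw [hcard, ← mul_sub, abs_mul, abs_of_pos hc, Finset.mul_sum, ← Finset.sum_sub_distrib]
    apply mul_le_mul_of_nonneg_left _ hc.le
    have h3 : |∑ v ∈ Ico s s', (kk Q b v - (kt Q b s : ℝ) * 1)| ≤
        ∑ _v ∈ Ico s s', (Var Q b l0 s + 1 / 2) := by
      refine (Finset.abs_sum_le_sum_abs _ _).trans (Finset.sum_le_sum ?_)
      intro v hv
      rw [mem_Ico] at hv
      rw [mul_one]
      exact kk_near b (by omega) (by omega)
    refine h3.trans ?_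
    simp only [sum_const, Nat.card_Ico, nsmul_eq_mul]
    apply mul_le_mul_of_nonneg_right _ (by positivity)
    have : s' - s ≤ l0 := by omega
    exact_mod_cast this
  · have hinc := b_increment hQ b h
    have hb : b s' - b s = -((2 * Real.pi / Q) * ∑ v ∈ Ico s' s, kk Q b v) := by
      rw [← hinc]
      ring
    have hcard : (s' : ℝ) - s = -∑ _v ∈ Ico s' s, (1 : ℝ) := by
      simp only [sum_const, Nat.card_Ico, nsmul_eq_mul, mul_one]
      rw [Nat.cast_sub h]
      ring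
    rw [hb, hcard]
    have h4 : -((2 * Real.pi / Q) * ∑ v ∈ Ico s' s, kk Q b v) -
        (2 * Real.pi / Q) * ((kt Q b s : ℝ) * -∑ _v ∈ Ico s' s, (1 : ℝ))
        = -((2 * Real.pi / Q) * ∑ v ∈ Ico s' s, (kk Q b v - (kt Q b s : ℝ) * 1)) := by
      rw [Finset.sum_sub_distrib, ← Finset.mul_sum]
      ring
    rw [h4, abs_neg, abs_mul, abs_of_pos hc]
    apply mul_le_mul_of_nonneg_left _ hc.le
    have h3 : |∑ v ∈ Ico s' s, (kk Q b v - (kt Q b s : ℝ) * 1)| ≤
        ∑ _v ∈ Ico s' s, (Var Q b l0 s + 1 / 2) := by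
      refine (Finset.abs_sum_le_sum_abs _ _).trans (Finset.sum_le_sum ?_)
      intro v hv
      rw [mem_Ico] at hv
      rw [mul_one]
      exact kk_near b (by omega) (by omega)
    refine h3.trans ?_
    simp only [sum_const, Nat.card_Ico, nsmul_eq_mul]
    apply mul_le_mul_of_nonneg_right _ (by positivity)
    have : s - s' ≤ l0 := by omega
    exact_mod_cast this

theorem F_add_Q {Q : ℕ} (hQ : 0 < Q) (a : ℕ → ℝ) (N : ℕ) (n : ℤ) :
    F a N Q (n + Q) = F a N Q n := by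
  unfold F
  apply Finset.sum_congr rfl
  intro k _
  have : (k : ℤ) * (n + Q) = (k : ℤ) * n + (Q : ℤ) * k := by ring
  rw [this, E_add_Q_mul hQ]

/-- Size bounds from the flatness hypothesis. -/
theorem norm_F_close {Q N : ℕ} {a : ℕ → ℝ} {ε : ℝ} (hε : 0 ≤ ε) (hN : 0 < N)
    (hflat : ∀ n : ℤ, |‖F a N Q n‖ ^ 2 - N| ≤ ε * N) (n : ℤ) :
    |‖F a N Q n‖ - Real.sqrt N| ≤ ε * Real.sqrt N := by
  have hNr : (0 : ℝ) < N := by exact_mod_cast hN
  have hs : 0 < Real.sqrt N := Real.sqrt_pos.2 hNr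
  have hss : Real.sqrt N * Real.sqrt N = N := Real.mul_self_sqrt hNr.le
  have hF := norm_nonneg (F a N Q n)
  have h1 := hflat n
  have h2 : ‖F a N Q n‖ ^ 2 - N = (‖F a N Q n‖ - Real.sqrt N) * (‖F a N Q n‖ + Real.sqrt N) := by
    nlinarith
  rw [h2, abs_mul, abs_of_pos (by positivity : 0 < ‖F a N Q n‖ + Real.sqrt N)] at h1
  have h3 : |‖F a N Q n‖ - Real.sqrt N| * Real.sqrt N ≤ (ε * Real.sqrt N) * Real.sqrt N := by
    calc |‖F a N Q n‖ - Real.sqrt N| * Real.sqrt N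
        ≤ |‖F a N Q n‖ - Real.sqrt N| * (‖F a N Q n‖ + Real.sqrt N) :=
          mul_le_mul_of_nonneg_left (by linarith) (abs_nonneg _)
      _ ≤ ε * N := h1
      _ = (ε * Real.sqrt N) * Real.sqrt N := by
          rw [mul_assoc, hss]
  exact le_of_mul_le_mul_right h3 hs

theorem norm_F_le {Q N : ℕ} {a : ℕ → ℝ} {ε : ℝ} (hε : 0 ≤ ε) (hN : 0 < N)
    (hflat : ∀ n : ℤ, |‖F a N Q n‖ ^ 2 - N| ≤ ε * N) (n : ℤ) :
    ‖F a N Q n‖ ≤ (1 + ε) * Real.sqrt N := by
  have := norm_F_close hε hN hflat n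
  have h2 := (abs_le.1 this).2
  linarith

/-- Comparison of two nearby polar forms. -/
theorem polar_close (r r' x x' : ℝ) (hr : 0 ≤ r) :
    ‖(r' : ℂ) * Complex.exp (Complex.I * (x' : ℂ)) - (r : ℂ) * Complex.exp (Complex.I * (x : ℂ))‖
      ≤ |r' - r| + r * |x' - x| := by
  have h1 : (r' : ℂ) * Complex.exp (Complex.I * (x' : ℂ)) -
      (r : ℂ) * Complex.exp (Complex.I * (x : ℂ)) =
      ((r' - r : ℝ) : ℂ) * Complex.exp (Complex.I * (x' : ℂ)) +
      (r : ℂ) * Complex.exp (Complex.I * (x : ℂ)) *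
        (Complex.exp (Complex.I * ((x' - x : ℝ) : ℂ)) - 1) := by
    have h2 : Complex.exp (Complex.I * (x' : ℂ)) =
        Complex.exp (Complex.I * (x : ℂ)) * Complex.exp (Complex.I * ((x' - x : ℝ) : ℂ)) := by
      rw [← Complex.exp_add]
      congr 1
      push_cast
      ring
    rw [h2]
    push_cast
    ring
  rw [h1]
  refine (norm_add_le _ _).trans (add_le_add ?_ ?_)
  · rw [norm_mul, mul_comm (Complex.I) (x' : ℂ), Complex.norm_exp_ofReal_mul_I, mul_one,
      Complex.norm_real, Real.norm_eq_abs]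
  · rw [norm_mul, norm_mul, mul_comm (Complex.I) (x : ℂ), Complex.norm_exp_ofReal_mul_I, mul_one,
      Complex.norm_real, Real.norm_eq_abs, abs_of_nonneg hr]
    apply mul_le_mul_of_nonneg_left _ hr
    have := Real.norm_exp_I_mul_ofReal_sub_one_le (x := x' - x)
    simpa using this

/-- The local bracket bound at mid points. -/
theorem bracket_mid {Q N : ℕ} (hQ : 0 < Q) (hN : 0 < N) {a : ℕ → ℝ} {ε : ℝ} (hε : 0 ≤ ε)
    (b : ℕ → ℝ)
    (hb : ∀ s : ℕ, F a N Q (s : ℤ) =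
      (‖F a N Q (s : ℤ)‖ : ℂ) * Complex.exp (Complex.I * (b s : ℂ)))
    (hflat : ∀ n : ℤ, |‖F a N Q n‖ ^ 2 - N| ≤ ε * N)
    {l0 s s' : ℕ} (h1 : s - l0 ≤ s') (h2 : s' ≤ s + l0) (hl : s ≤ s' ∨ l0 ≤ s) :
    ‖F a N Q (s' : ℤ) - F a N Q (s : ℤ) * E Q (kt Q b s * ((s' : ℤ) - s))‖ ≤
      2 * ε * Real.sqrt N +
        (1 + ε) * Real.sqrt N * ((2 * Real.pi / Q) * ((l0 : ℝ) * (Var Q b l0 s + 1 / 2))) := by
  have hs : 0 ≤ Real.sqrt N := Real.sqrt_nonneg _
  set x : ℝ := b s + (2 * Real.pi / Q) * ((kt Q b s : ℝ) * ((s' : ℝ) - s)) with hx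
  have h3 : F a N Q (s : ℤ) * E Q (kt Q b s * ((s' : ℤ) - s)) =
      (‖F a N Q (s : ℤ)‖ : ℂ) * Complex.exp (Complex.I * (x : ℂ)) := by
    conv_lhs => rw [hb s]
    rw [mul_assoc]
    congr 1
    rw [E_eq_exp_real, ← Complex.exp_add]
    congr 1
    rw [hx]
    push_cast
    ring
  rw [h3]
  conv_lhs => rw [hb s']
  refine (polar_close _ _ _ _ (norm_nonneg _)).trans ?_
  have hc1 := norm_F_close hε hN hflat (s : ℤ)
  have hc2 := norm_F_close hε hN hflat (s' : ℤ)
  have hd : |‖F a N Q (s' : ℤ)‖ - ‖F a N Q (s : ℤ)‖| ≤ 2 * ε * Real.sqrt N := by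
    rw [abs_le] at hc1 hc2 ⊢
    constructor <;> linarith [hc1.1, hc1.2, hc2.1, hc2.2]
  have hphase := phase_linear hQ b h1 h2 hl
  have hphase' : |b s' - x| ≤ (2 * Real.pi / Q) * ((l0 : ℝ) * (Var Q b l0 s + 1 / 2)) := by
    have : b s' - x = b s' - b s - (2 * Real.pi / Q) * ((kt Q b s : ℝ) * ((s' : ℝ) - s)) := by
      rw [hx]
      ring
    rw [this]
    exact hphase
  have hr := norm_F_le hε hN hflat (s : ℤ)
  refine add_le_add hd ?_
  exact mul_le_mul hr hphase' (abs_nonneg _) (by positivity)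

/-- The pointwise bound used in the spectral approximation. -/
noncomputable def rho (Q N : ℕ) (ε : ℝ) (b : ℕ → ℝ) (l0 s : ℕ) : ℝ :=
  if l0 ≤ s ∧ s + l0 < Q then
    2 * ε * Real.sqrt N +
      (1 + ε) * Real.sqrt N * ((2 * Real.pi / Q) * ((l0 : ℝ) * (Var Q b l0 s + 1 / 2)))
  else 2 * ((1 + ε) * Real.sqrt N)

theorem rho_nonneg (Q N : ℕ) {ε : ℝ} (hε : 0 ≤ ε) (b : ℕ → ℝ) (l0 s : ℕ) :
    0 ≤ rho Q N ε b l0 s := by
  unfold rho
  have hV := Var_nonneg Q b l0 s
  split_ifs <;> positivity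

theorem bracket_le_rho {Q N : ℕ} (hQ : 0 < Q) (hN : 0 < N) {a : ℕ → ℝ} {ε : ℝ} (hε : 0 ≤ ε)
    (b : ℕ → ℝ)
    (hb : ∀ s : ℕ, F a N Q (s : ℤ) =
      (‖F a N Q (s : ℤ)‖ : ℂ) * Complex.exp (Complex.I * (b s : ℂ)))
    (hflat : ∀ n : ℤ, |‖F a N Q n‖ ^ 2 - N| ≤ ε * N)
    (l0 s i : ℕ) (hi : i < Q) (hin : i ∉ Ioo l0 (Q - l0)) :
    ‖F a N Q ((s : ℤ) + i) - F a N Q (s : ℤ) * E Q (kt Q b s * i)‖ ≤ rho Q N ε b l0 s := by
  unfold rho
  have hCb := norm_F_le hε hN hflat
  split_ifs with hmid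
  · obtain ⟨hm1, hm2⟩ := hmid
    rw [mem_Ioo, not_and_or] at hin
    by_cases hnear : i ≤ l0
    · have := bracket_mid hQ hN hε b hb hflat (l0 := l0) (s := s) (s' := s + i)
        (by omega) (by omega) (Or.inr hm1)
      push_cast at this
      simpa using this
    · have hi2 : Q ≤ i + l0 := by omega
      have hs' : Q ≤ s + i := by omega
      have := bracket_mid hQ hN hε b hb hflat (l0 := l0) (s := s) (s' := s + i - Q)
        (by omega) (by omega) (Or.inr hm1)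
      have hcast : ((s + i - Q : ℕ) : ℤ) = (s : ℤ) + i - Q := by
        rw [Nat.cast_sub hs']
        push_cast
        ring
      rw [hcast] at this
      have hF : F a N Q ((s : ℤ) + i) = F a N Q ((s : ℤ) + i - Q) := by
        have := F_add_Q hQ a N ((s : ℤ) + i - Q)
        rw [← this]
        congr 1
        ring
      have hE : E Q (kt Q b s * i) = E Q (kt Q b s * ((s : ℤ) + i - Q - s)) := by
        have h5 : kt Q b s * (i : ℤ) = kt Q b s * ((s : ℤ) + i - Q - s) + (Q : ℤ) * kt Q b s := by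
          ring
        rw [h5, E_add_Q_mul hQ]
      rw [hF, hE]
      exact this
  · calc ‖F a N Q ((s : ℤ) + i) - F a N Q (s : ℤ) * E Q (kt Q b s * i)‖
        ≤ ‖F a N Q ((s : ℤ) + i)‖ + ‖F a N Q (s : ℤ) * E Q (kt Q b s * i)‖ := norm_sub_le _ _
      _ ≤ (1 + ε) * Real.sqrt N + (1 + ε) * Real.sqrt N := by
          apply add_le_add (hCb _)
          rw [norm_mul, norm_E, mul_one]
          exact hCb _
      _ = 2 * ((1 + ε) * Real.sqrt N) := by ring

/-- Summing the local variations. -/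
theorem sum_Var_le {Q : ℕ} (b : ℕ → ℝ) (l0 : ℕ) (V : ℝ)
    (hV : ∑ u ∈ range (Q - 1), |kk Q b (u + 1) - kk Q b u| ≤ V) :
    ∑ s ∈ (range Q).filter (fun s => l0 ≤ s ∧ s + l0 < Q), Var Q b l0 s ≤ 2 * l0 * V := by
  classical
  set g : ℕ → ℝ := fun u => |kk Q b (u + 1) - kk Q b u| with hg
  have hg0 : ∀ u, 0 ≤ g u := fun u => abs_nonneg _
  have hV0 : 0 ≤ V := le_trans (Finset.sum_nonneg fun u _ => hg0 u) hV
  have h1 : ∀ s ∈ (range Q).filter (fun s => l0 ≤ s ∧ s + l0 < Q),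
      Var Q b l0 s = ∑ x ∈ range (2 * l0), g (s - l0 + x) := by
    intro s hs
    obtain ⟨_, hs2, _⟩ := mem_filter.1 hs
    unfold Var
    rw [Finset.sum_Ico_eq_sum_range]
    have : s + l0 - (s - l0) = 2 * l0 := by omega
    rw [this]
  rw [Finset.sum_congr rfl h1, Finset.sum_comm]
  have h2 : ∀ x ∈ range (2 * l0),
      ∑ s ∈ (range Q).filter (fun s => l0 ≤ s ∧ s + l0 < Q), g (s - l0 + x) ≤ V := by
    intro x hx
    have hx' := mem_range.1 hx
    refine le_trans ?_ hV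
    have hinj : Set.InjOn (fun s => s - l0 + x)
        ((range Q).filter (fun s => l0 ≤ s ∧ s + l0 < Q) : Finset ℕ) := by
      intro s hs s' hs' h
      have hs1 := (mem_filter.1 (Finset.mem_coe.1 hs)).2.1
      have hs2 := (mem_filter.1 (Finset.mem_coe.1 hs')).2.1
      simp only at h
      omega
    rw [← Finset.sum_image (f := g) hinj]
    apply Finset.sum_le_sum_of_subset_of_nonneg
    · intro u hu
      obtain ⟨s, hs, rfl⟩ := mem_image.1 hu
      obtain ⟨_, hs2, hs3⟩ := mem_filter.1 hs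
      rw [mem_range]
      omega
    · intro _ _ _
      exact hg0 _
  calc ∑ x ∈ range (2 * l0), ∑ s ∈ (range Q).filter (fun s => l0 ≤ s ∧ s + l0 < Q), g (s - l0 + x)
      ≤ ∑ _x ∈ range (2 * l0), V := Finset.sum_le_sum h2
    _ = 2 * l0 * V := by simp

/-- The total of the pointwise bounds. -/
theorem sum_rho_le {Q N : ℕ} (hQ : 0 < Q) {ε : ℝ} (hε : 0 ≤ ε) (b : ℕ → ℝ) (l0 : ℕ) (V : ℝ)
    (hV : ∑ u ∈ range (Q - 1), |kk Q b (u + 1) - kk Q b u| ≤ V) :
    ∑ s ∈ range Q, rho Q N ε b l0 s ≤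
      (Q : ℝ) * (2 * ε * Real.sqrt N) +
      (1 + ε) * Real.sqrt N * ((2 * Real.pi / Q) * ((l0 : ℝ) * (2 * l0 * V + (Q : ℝ) / 2))) +
      (2 * l0 : ℝ) * (2 * ((1 + ε) * Real.sqrt N)) := by
  classical
  have hQr : (0 : ℝ) < Q := by exact_mod_cast hQ
  set mid := (range Q).filter (fun s => l0 ≤ s ∧ s + l0 < Q) with hmid
  set non := (range Q).filter (fun s => ¬ (l0 ≤ s ∧ s + l0 < Q)) with hnon
  have hsplit : ∑ s ∈ range Q, rho Q N ε b l0 s =
      ∑ s ∈ mid, rho Q N ε b l0 s + ∑ s ∈ non, rho Q N ε b l0 s :=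
    (Finset.sum_filter_add_sum_filter_not _ _ _).symm
  rw [hsplit]
  have hs : 0 ≤ Real.sqrt N := Real.sqrt_nonneg _
  have hc : 0 < 2 * Real.pi / (Q : ℝ) := by positivity
  have hmidcard : (mid.card : ℝ) ≤ Q := by
    have : mid.card ≤ (range Q).card := Finset.card_filter_le _ _
    rw [card_range] at this
    exact_mod_cast this
  have hnoncard : (non.card : ℝ) ≤ 2 * l0 := by
    have hsub : non ⊆ range l0 ∪ (range Q).filter (fun s => Q ≤ s + l0) := by
      intro s hs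
      obtain ⟨h1, h2⟩ := mem_filter.1 hs
      rw [mem_union]
      by_cases hsl : s < l0
      · exact Or.inl (mem_range.2 hsl)
      · right
        refine mem_filter.2 ⟨h1, ?_⟩
        by_contra hcon
        exact h2 ⟨by omega, by omega⟩
    have hsub2 : (range Q).filter (fun s => Q ≤ s + l0) ⊆ Ico (Q - l0) Q := by
      intro s hs
      obtain ⟨h1, h2⟩ := mem_filter.1 hs
      rw [mem_range] at h1
      rw [mem_Ico]
      omega
    have hc1 : non.card ≤ l0 + l0 := by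
      calc non.card ≤ (range l0 ∪ (range Q).filter (fun s => Q ≤ s + l0)).card :=
            Finset.card_le_card hsub
        _ ≤ (range l0).card + ((range Q).filter (fun s => Q ≤ s + l0)).card :=
            Finset.card_union_le _ _
        _ ≤ l0 + (Ico (Q - l0) Q).card := by
            rw [card_range]
            exact Nat.add_le_add_left (Finset.card_le_card hsub2) _
        _ ≤ l0 + l0 := by
            rw [Nat.card_Ico]
            omega
    have : (non.card : ℝ) ≤ ((l0 + l0 : ℕ) : ℝ) := by exact_mod_cast hc1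
    push_cast at this
    linarith
  have h1 : ∑ s ∈ mid, rho Q N ε b l0 s ≤
      (Q : ℝ) * (2 * ε * Real.sqrt N) +
      (1 + ε) * Real.sqrt N * ((2 * Real.pi / Q) * ((l0 : ℝ) * (2 * l0 * V + (Q : ℝ) / 2))) := by
    have hv := sum_Var_le b l0 V hV
    have hterm : ∀ s ∈ mid, rho Q N ε b l0 s =
        2 * ε * Real.sqrt N +
          (1 + ε) * Real.sqrt N * ((2 * Real.pi / Q) * ((l0 : ℝ) * (Var Q b l0 s + 1 / 2))) := by
      intro s hs
      have := (mem_filter.1 hs).2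
      simp only [rho, if_pos this]
    have hsum : ∑ s ∈ mid, (2 * ε * Real.sqrt N +
          (1 + ε) * Real.sqrt N * ((2 * Real.pi / Q) * ((l0 : ℝ) * (Var Q b l0 s + 1 / 2)))) =
        (mid.card : ℝ) * (2 * ε * Real.sqrt N) + (1 + ε) * Real.sqrt N *
          ((2 * Real.pi / Q) * ((l0 : ℝ) * (∑ s ∈ mid, Var Q b l0 s + (mid.card : ℝ) * (1 / 2)))) := by
      rw [Finset.sum_add_distrib, Finset.sum_const, nsmul_eq_mul, ← Finset.mul_sum,
        ← Finset.mul_sum, ← Finset.mul_sum, Finset.sum_add_distrib, Finset.sum_const, nsmul_eq_mul]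
    rw [Finset.sum_congr rfl hterm, hsum]
    apply add_le_add
    · apply mul_le_mul_of_nonneg_right hmidcard
      positivity
    · apply mul_le_mul_of_nonneg_left _ (by positivity)
      apply mul_le_mul_of_nonneg_left _ hc.le
      apply mul_le_mul_of_nonneg_left _ (by positivity)
      have : (mid.card : ℝ) * (1 / 2) ≤ (Q : ℝ) / 2 := by linarith
      exact add_le_add hv this
  have h2 : ∑ s ∈ non, rho Q N ε b l0 s ≤ (2 * l0 : ℝ) * (2 * ((1 + ε) * Real.sqrt N)) := by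
    have hterm : ∀ s ∈ non, rho Q N ε b l0 s = 2 * ((1 + ε) * Real.sqrt N) := by
      intro s hs
      have := (mem_filter.1 hs).2
      simp only [rho, if_neg this]
    rw [Finset.sum_congr rfl hterm]
    simp only [sum_const, nsmul_eq_mul]
    apply mul_le_mul_of_nonneg_right hnoncard
    positivity
  linarith

end Vale.Agent.Lib.P110
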