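import Vale.Agent.Lib.P110.Phase

/-! The local correlation of a flat polynomial with bounded variation of the group delay. -/

namespace Vale.Agent.Lib.P110

open Finset
open scoped ComplexConjugate

/-- The error term of the spectral approximation. -/
noncomputable def errE (Q L : ℕ) (ε V : ℝ) (l0 : ℕ) : ℝ :=
  5 * ε + 4 * ((2 * Real.pi / (Q : ℝ) ^ 2) * ((l0 : ℝ) * (2 * l0 * V + (Q : ℝ) / 2))) +
    16 * ((l0 : ℝ) / Q) + 8 * (((Q : ℝ) / L) / (l0 + 1))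

theorem spectral {Q L N : ℕ} {a : ℕ → ℝ} (hQ : 0 < Q) (hN : 0 < N) (hL0 : 0 < L) (hL : L ≤ Q)
    {ε : ℝ} (hε : 0 ≤ ε) (hε1 : ε ≤ 1) (b : ℕ → ℝ)
    (hb : ∀ s : ℕ, F a N Q (s : ℤ) =
      (‖F a N Q (s : ℤ)‖ : ℂ) * Complex.exp (Complex.I * (b s : ℂ)))
    (hflat : ∀ n : ℤ, |‖F a N Q n‖ ^ 2 - N| ≤ ε * N)
    (V : ℝ) (hV : ∑ u ∈ range (Q - 1), |kk Q b (u + 1) - kk Q b u| ≤ V) (l0 : ℕ)
    (τ : ℤ) (j : ℕ) (hNj : N + j ≤ Q) :
    |Cor a N Q L j τ -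
        (N / (Q : ℝ)) * ∑ s ∈ range Q, T Q L (kt Q b s - τ) * co Q ((j : ℤ) * s)|
      ≤ errE Q L ε V l0 * N := by
  have hQr : (0 : ℝ) < Q := by exact_mod_cast hQ
  have hLr : (0 : ℝ) < L := by exact_mod_cast hL0
  have hNr : (0 : ℝ) < N := by exact_mod_cast hN
  have hs : 0 < Real.sqrt N := Real.sqrt_pos.2 hNr
  have hss : Real.sqrt N * Real.sqrt N = N := Real.mul_self_sqrt hNr.le
  have hV0 : 0 ≤ V := le_trans (Finset.sum_nonneg fun _ _ => abs_nonneg _) hV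
  set Cb : ℝ := (1 + ε) * Real.sqrt N with hCb
  have hCbF : ∀ n : ℤ, ‖F a N Q n‖ ≤ Cb := norm_F_le hε hN hflat
  set A1 : ℝ := (2 * Real.pi / (Q : ℝ) ^ 2) * ((l0 : ℝ) * (2 * l0 * V + (Q : ℝ) / 2)) with hA1
  set A2 : ℝ := (l0 : ℝ) / Q with hA2
  set A3 : ℝ := ((Q : ℝ) / L) / (l0 + 1) with hA3
  have hA1n : 0 ≤ A1 := by positivity
  have hA2n : 0 ≤ A2 := by positivity
  have hA3n : 0 ≤ A3 := by positivity
  set Dbar : ℝ := Real.sqrt N * (2 * ε + (1 + ε) * (A1 + 4 * A2 + 2 * A3)) with hDbar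
  have hDsum : ∑ s ∈ range Q, ‖Dft a N Q L (kt Q b) τ s‖ ≤ Q * Dbar := by
    have h1 := sum_norm_Dft_le (L := L) a N hQ hL0 hL (kt Q b) τ Cb l0 (rho Q N ε b l0) hCbF
      (fun s _ i hi hin => bracket_le_rho hQ hN hε b hb hflat l0 s i hi hin)
      (fun s _ => rho_nonneg Q N hε b l0 s)
    have h2 := sum_rho_le (N := N) hQ hε b l0 V hV
    refine h1.trans ((add_le_add_left h2 _).trans (le_of_eq ?_))
    rw [hDbar, hA1, hA2, hA3, hCb]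
    field_simp
    ring
  have h := approx (j := j) a hQ hL0 hL hNj (kt Q b) τ Cb ε Dbar hCbF hflat hDsum
  refine h.trans ?_
  have hfinal : ε * N + Cb * Dbar = N * (ε + (1 + ε) * (2 * ε + (1 + ε) * (A1 + 4 * A2 + 2 * A3))) := by
    rw [hCb, hDbar]
    calc ε * N + (1 + ε) * Real.sqrt N *
          (Real.sqrt N * (2 * ε + (1 + ε) * (A1 + 4 * A2 + 2 * A3)))
        = ε * N + (1 + ε) * (Real.sqrt N * Real.sqrt N) *
            (2 * ε + (1 + ε) * (A1 + 4 * A2 + 2 * A3)) := by ring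
      _ = _ := by rw [hss]; ring
  rw [hfinal]
  unfold errE
  rw [← hA1, ← hA2, ← hA3, mul_comm _ (N : ℝ)]
  apply mul_le_mul_of_nonneg_left _ hNr.le
  have hsum : 0 ≤ A1 + 4 * A2 + 2 * A3 := by positivity
  have h1 : (1 + ε) * (2 * ε) ≤ 2 * (2 * ε) := by nlinarith
  have h2 : (1 + ε) * ((1 + ε) * (A1 + 4 * A2 + 2 * A3)) ≤ 2 * (2 * (A1 + 4 * A2 + 2 * A3)) := by
    have : (1 + ε) * (1 + ε) ≤ 2 * 2 := by nlinarith
    calc (1 + ε) * ((1 + ε) * (A1 + 4 * A2 + 2 * A3))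
        = ((1 + ε) * (1 + ε)) * (A1 + 4 * A2 + 2 * A3) := by ring
      _ ≤ (2 * 2) * (A1 + 4 * A2 + 2 * A3) := mul_le_mul_of_nonneg_right this hsum
      _ = _ := by ring
  nlinarith

end Vale.Agent.Lib.P110
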