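import Vale.Agent.Lib.P110.Basic

/-! The periodic triangle window and its Fourier (Fejer) representation. -/

namespace Vale.Agent.Lib.P110

open Finset
open scoped ComplexConjugate

/-- Number of `h < L` with `Q ∣ h + n`. -/
noncomputable def cnt (Q L : ℕ) (n : ℤ) : ℝ := ∑ h ∈ range L, ind Q ((h : ℤ) + n)

/-- The periodic triangle window of half width `L`. -/
noncomputable def T (Q L : ℕ) (n : ℤ) : ℝ :=
  (1 / (L : ℝ)) * ∑ h' ∈ range L, cnt Q L (n - h')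

/-- The Dirichlet kernel. -/
noncomputable def Dir (Q L : ℕ) (i : ℤ) : ℂ := ∑ h ∈ range L, E Q ((h : ℤ) * i)

/-- The Fejer kernel. -/
noncomputable def Phi (Q L : ℕ) (i : ℤ) : ℝ := ‖Dir Q L i‖ ^ 2 / (L : ℝ)

theorem cnt_nonneg (Q L : ℕ) (n : ℤ) : 0 ≤ cnt Q L n :=
  Finset.sum_nonneg fun _ _ => ind_nonneg _ _

theorem cnt_le_one {Q L : ℕ} (hQ : 0 < Q) (hL : L ≤ Q) (n : ℤ) : cnt Q L n ≤ 1 :=
  sum_ind_le_one hQ hL n

theorem T_nonneg (Q L : ℕ) (n : ℤ) : 0 ≤ T Q L n := by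
  unfold T
  apply mul_nonneg (by positivity)
  exact Finset.sum_nonneg fun _ _ => cnt_nonneg _ _ _

theorem T_le_one {Q L : ℕ} (hQ : 0 < Q) (hL0 : 0 < L) (hL : L ≤ Q) (n : ℤ) : T Q L n ≤ 1 := by
  unfold T
  have hL' : (0 : ℝ) < L := by exact_mod_cast hL0
  have h1 : ∑ h' ∈ range L, cnt Q L (n - h') ≤ ∑ _h' ∈ range L, (1 : ℝ) :=
    Finset.sum_le_sum fun _ _ => cnt_le_one hQ hL _
  simp only [sum_const, card_range, nsmul_eq_mul, mul_one] at h1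
  rw [one_div]
  calc (L : ℝ)⁻¹ * ∑ h' ∈ range L, cnt Q L (n - h') ≤ (L : ℝ)⁻¹ * L :=
        mul_le_mul_of_nonneg_left h1 (by positivity)
    _ = 1 := inv_mul_cancel₀ hL'.ne'

theorem T_sub_one_abs {Q L : ℕ} (hQ : 0 < Q) (hL0 : 0 < L) (hL : L ≤ Q) (n : ℤ) :
    |T Q L (n - 1) - T Q L n| ≤ 1 / (L : ℝ) := by
  unfold T
  have hL' : (0 : ℝ) < L := by exact_mod_cast hL0
  rw [← mul_sub, abs_mul, abs_of_pos (by positivity : (0 : ℝ) < 1 / L)]
  have hsum : ∑ h' ∈ range L, cnt Q L (n - 1 - h') - ∑ h' ∈ range L, cnt Q L (n - h')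
      = cnt Q L (n - (L : ℤ)) - cnt Q L (n - ((0 : ℕ) : ℤ)) := by
    rw [← Finset.sum_sub_distrib]
    have := Finset.sum_range_sub (fun m : ℕ => cnt Q L (n - (m : ℤ))) L
    rw [← this]
    apply Finset.sum_congr rfl
    intro x _
    congr 2
    push_cast
    ring
  rw [hsum]
  have h1 := cnt_le_one hQ hL (n - (L : ℤ))
  have h2 := cnt_nonneg Q L (n - (L : ℤ))
  have h3 := cnt_le_one hQ hL (n - ((0 : ℕ) : ℤ))
  have h4 := cnt_nonneg Q L (n - ((0 : ℕ) : ℤ))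
  have : |cnt Q L (n - (L : ℤ)) - cnt Q L (n - ((0 : ℕ) : ℤ))| ≤ 1 := by
    rw [abs_le]
    constructor <;> linarith
  calc 1 / (L : ℝ) * |cnt Q L (n - (L : ℤ)) - cnt Q L (n - ((0 : ℕ) : ℤ))|
      ≤ 1 / (L : ℝ) * 1 := mul_le_mul_of_nonneg_left this (by positivity)
    _ = 1 / (L : ℝ) := mul_one _

theorem T_lip {Q L : ℕ} (hQ : 0 < Q) (hL0 : 0 < L) (hL : L ≤ Q) (n : ℤ) (j : ℕ) :
    |T Q L (n - j) - T Q L n| ≤ (j : ℝ) / (L : ℝ) := by
  induction j with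
  | zero => simp
  | succ j ih =>
    have h1 := T_sub_one_abs hQ hL0 hL (n - j)
    have h2 : n - ((j + 1 : ℕ) : ℤ) = n - j - 1 := by
      push_cast
      ring
    rw [h2]
    calc |T Q L (n - j - 1) - T Q L n|
        = |(T Q L (n - j - 1) - T Q L (n - j)) + (T Q L (n - j) - T Q L n)| := by
          congr 1
          ring
      _ ≤ |T Q L (n - j - 1) - T Q L (n - j)| + |T Q L (n - j) - T Q L n| := abs_add_le _ _
      _ ≤ 1 / (L : ℝ) + (j : ℝ) / (L : ℝ) := add_le_add h1 ih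
      _ = ((j + 1 : ℕ) : ℝ) / (L : ℝ) := by
          push_cast
          ring

theorem T_sum_le {Q L N : ℕ} (hQ : 0 < Q) (hL0 : 0 < L) (hN : N ≤ Q) (τ : ℤ) :
    ∑ k ∈ range N, T Q L ((k : ℤ) - τ) ≤ L := by
  unfold T cnt
  have hL' : (0 : ℝ) < L := by exact_mod_cast hL0
  rw [← Finset.mul_sum]
  have key : ∑ k ∈ range N, ∑ h' ∈ range L, ∑ h ∈ range L, ind Q ((h : ℤ) + ((k : ℤ) - τ - h'))
      ≤ (L : ℝ) * L := by
    rw [Finset.sum_comm]
    have : ∀ h' ∈ range L,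
        ∑ k ∈ range N, ∑ h ∈ range L, ind Q ((h : ℤ) + ((k : ℤ) - τ - h')) ≤ (L : ℝ) := by
      intro h' _
      rw [Finset.sum_comm]
      have h2 : ∀ h ∈ range L, ∑ k ∈ range N, ind Q ((h : ℤ) + ((k : ℤ) - τ - h')) ≤ 1 := by
        intro h _
        have := sum_ind_le_one hQ hN ((h : ℤ) - τ - h')
        calc ∑ k ∈ range N, ind Q ((h : ℤ) + ((k : ℤ) - τ - h'))
            = ∑ k ∈ range N, ind Q ((k : ℤ) + ((h : ℤ) - τ - h')) := by
              apply Finset.sum_congr rfl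
              intro k _
              congr 1
              ring
          _ ≤ 1 := this
      calc ∑ h ∈ range L, ∑ k ∈ range N, ind Q ((h : ℤ) + ((k : ℤ) - τ - h'))
          ≤ ∑ _h ∈ range L, (1 : ℝ) := Finset.sum_le_sum h2
        _ = L := by simp
    calc ∑ h' ∈ range L, ∑ k ∈ range N, ∑ h ∈ range L, ind Q ((h : ℤ) + ((k : ℤ) - τ - h'))
        ≤ ∑ _h' ∈ range L, (L : ℝ) := Finset.sum_le_sum this
      _ = (L : ℝ) * L := by simp
  calc 1 / (L : ℝ) * ∑ k ∈ range N, ∑ h' ∈ range L, ∑ h ∈ range L,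
        ind Q ((h : ℤ) + ((k : ℤ) - τ - h'))
      ≤ 1 / (L : ℝ) * ((L : ℝ) * L) := mul_le_mul_of_nonneg_left key (by positivity)
    _ = L := by field_simp

/-- The translates of the window by multiples of `L` cover the line. -/
theorem T_partition {Q L W : ℕ} (hQ : 0 < Q) (hL0 : 0 < L) (hLW : Q = L * W) (n : ℤ) :
    1 ≤ ∑ t ∈ range W, T Q L (n + (L : ℤ) * t) := by
  have hL' : (0 : ℝ) < L := by exact_mod_cast hL0
  have hW0 : 0 < W := by
    rcases Nat.eq_zero_or_pos W with h | h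
    · subst h
      simp at hLW
      omega
    · exact h
  unfold T cnt
  rw [← Finset.mul_sum]
  have key : (L : ℝ) ≤ ∑ t ∈ range W, ∑ h' ∈ range L, ∑ h ∈ range L,
      ind Q ((h : ℤ) + (n + (L : ℤ) * t - h')) := by
    rw [Finset.sum_comm]
    have : ∀ h' ∈ range L, (1 : ℝ) ≤ ∑ t ∈ range W, ∑ h ∈ range L,
        ind Q ((h : ℤ) + (n + (L : ℤ) * t - h')) := by
      intro h' _
      -- the residue of `h' - n` modulo `Q`
      set c : ℤ := ((h' : ℤ) - n) % Q with hc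
      have hQ' : (Q : ℤ) ≠ 0 := by exact_mod_cast hQ.ne'
      have hQpos : (0 : ℤ) < Q := by exact_mod_cast hQ
      have hc0 : 0 ≤ c := Int.emod_nonneg _ hQ'
      have hc1 : c < Q := Int.emod_lt_of_pos _ hQpos
      have hLpos : (0 : ℤ) < L := by exact_mod_cast hL0
      set h0 : ℤ := c % L with hh0
      set t0 : ℤ := c / L with ht0
      have hh00 : 0 ≤ h0 := Int.emod_nonneg _ hLpos.ne'
      have hh01 : h0 < L := Int.emod_lt_of_pos _ hLpos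
      have ht00 : 0 ≤ t0 := Int.ediv_nonneg hc0 hLpos.le
      have hdecomp : h0 + (L : ℤ) * t0 = c := Int.emod_add_mul_ediv c L
      have ht01 : t0 < W := by
        have hQL : (Q : ℤ) = (L : ℤ) * W := by exact_mod_cast hLW
        rw [hQL] at hc1
        have : (L : ℤ) * t0 < (L : ℤ) * W := by nlinarith
        exact lt_of_mul_lt_mul_left this hLpos.le
      obtain ⟨hn, hhn⟩ := Int.eq_ofNat_of_zero_le hh00
      obtain ⟨tn, htn⟩ := Int.eq_ofNat_of_zero_le ht00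
      have hnlt : hn < L := by
        rw [hhn] at hh01
        exact_mod_cast hh01
      have htlt : tn < W := by
        rw [htn] at ht01
        exact_mod_cast ht01
      have hdvd : (Q : ℤ) ∣ (hn : ℤ) + (n + (L : ℤ) * tn - h') := by
        have h1 : (hn : ℤ) + (n + (L : ℤ) * tn - h') = c - ((h' : ℤ) - n) := by
          rw [← hdecomp, hhn, htn]
          ring
        rw [h1]
        have h2 : (Q : ℤ) ∣ ((h' : ℤ) - n) - c := Int.dvd_self_sub_emod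
        have h3 := (dvd_neg (a := (Q : ℤ))).2 h2
        simpa using h3
      have hterm : ind Q ((hn : ℤ) + (n + (L : ℤ) * tn - h')) = 1 := by
        simp [ind, hdvd]
      calc (1 : ℝ) = ind Q ((hn : ℤ) + (n + (L : ℤ) * tn - h')) := hterm.symm
        _ ≤ ∑ h ∈ range L, ind Q ((h : ℤ) + (n + (L : ℤ) * tn - h')) :=
            Finset.single_le_sum (f := fun h : ℕ => ind Q ((h : ℤ) + (n + (L : ℤ) * tn - h')))
              (fun _ _ => ind_nonneg _ _) (mem_range.2 hnlt)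
        _ ≤ ∑ t ∈ range W, ∑ h ∈ range L, ind Q ((h : ℤ) + (n + (L : ℤ) * t - h')) :=
            Finset.single_le_sum
              (f := fun t : ℕ => ∑ h ∈ range L, ind Q ((h : ℤ) + (n + (L : ℤ) * t - h')))
              (fun _ _ => Finset.sum_nonneg fun _ _ => ind_nonneg _ _) (mem_range.2 htlt)
    calc (L : ℝ) = ∑ _h' ∈ range L, (1 : ℝ) := by simp
      _ ≤ _ := Finset.sum_le_sum this
  calc (1 : ℝ) = 1 / (L : ℝ) * L := by field_simp
    _ ≤ _ := mul_le_mul_of_nonneg_left key (by positivity)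

theorem T_support {Q L : ℕ} {n : ℤ} (h : T Q L n ≠ 0) :
    ∃ m : ℤ, |n - (Q : ℤ) * m| < L := by
  unfold T at h
  have h1 : ∑ h' ∈ range L, cnt Q L (n - h') ≠ 0 := by
    intro h0
    apply h
    rw [h0, mul_zero]
  obtain ⟨h', hh', hne⟩ := Finset.exists_ne_zero_of_sum_ne_zero h1
  unfold cnt at hne
  obtain ⟨h0, hh0, hne0⟩ := Finset.exists_ne_zero_of_sum_ne_zero hne
  unfold ind at hne0
  have hd : (Q : ℤ) ∣ (h0 : ℤ) + (n - h') := by
    by_contra hcon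
    simp [hcon] at hne0
  obtain ⟨m, hm⟩ := hd
  refine ⟨m, ?_⟩
  have hlt1 : (h' : ℤ) < L := by exact_mod_cast mem_range.1 hh'
  have hlt2 : (h0 : ℤ) < L := by exact_mod_cast mem_range.1 hh0
  have hn1 : (0 : ℤ) ≤ h' := by positivity
  have hn2 : (0 : ℤ) ≤ h0 := by positivity
  rw [abs_lt]
  constructor <;> linarith

theorem Phi_nonneg (Q L : ℕ) (i : ℤ) : 0 ≤ Phi Q L i := by
  unfold Phi
  positivity

/-- The Fourier representation of the window. -/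
theorem T_fourier {Q L : ℕ} (hQ : 0 < Q) (hL0 : 0 < L) (n : ℤ) :
    ((T Q L n : ℝ) : ℂ) =
      (1 / (Q : ℂ)) * ∑ i ∈ range Q, ((Phi Q L (i : ℤ) : ℝ) : ℂ) * E Q (n * i) := by
  have hQ' : (Q : ℂ) ≠ 0 := by exact_mod_cast hQ.ne'
  have hL' : (L : ℂ) ≠ 0 := by exact_mod_cast hL0.ne'
  have hPhi : ∀ i : ℕ, ((Phi Q L (i : ℤ) : ℝ) : ℂ) =
      (1 / (L : ℂ)) * ∑ h ∈ range L, ∑ h' ∈ range L, E Q (((h : ℤ) - h') * i) := by
    intro i
    unfold Phi
    push_cast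
    have h1 : ((‖Dir Q L (i : ℤ)‖ : ℂ)) ^ 2 = Dir Q L i * conj (Dir Q L i) := by
      rw [Complex.mul_conj, Complex.normSq_eq_norm_sq]
      push_cast
      rfl
    rw [h1]
    unfold Dir
    rw [map_sum, Finset.sum_mul_sum, div_eq_mul_inv, mul_comm, one_div]
    congr 1
    apply Finset.sum_congr rfl
    intro h _
    apply Finset.sum_congr rfl
    intro h' _
    rw [conj_E, ← E_add]
    congr 1
    ring
  have hmain : ∑ i ∈ range Q, ((Phi Q L (i : ℤ) : ℝ) : ℂ) * E Q (n * i)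
      = (1 / (L : ℂ)) * ∑ h ∈ range L, ∑ h' ∈ range L,
          ((Q : ℂ) * ((ind Q ((h : ℤ) - h' + n) : ℝ) : ℂ)) := by
    have hterm : ∀ h ∈ range L, ∀ h' ∈ range L,
        ((Q : ℂ) * ((ind Q ((h : ℤ) - h' + n) : ℝ) : ℂ))
          = ∑ i ∈ range Q, E Q (((h : ℤ) - h') * i) * E Q (n * i) := by
      intro h _ h' _
      rw [← orth hQ]
      apply Finset.sum_congr rfl
      intro i _
      rw [← E_add]
      congr 1
      ring
    rw [Finset.sum_congr rfl (fun h hh => Finset.sum_congr rfl (fun h' hh' => hterm h hh h' hh'))]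
    simp only [hPhi]
    simp only [mul_assoc, ← Finset.mul_sum]
    congr 1
    simp only [Finset.sum_mul]
    rw [Finset.sum_comm]
    apply Finset.sum_congr rfl
    intro h _
    rw [Finset.sum_comm]
  rw [hmain]
  unfold T cnt
  push_cast
  rw [Finset.sum_comm]
  simp only [← Finset.mul_sum]
  field_simp
  apply Finset.sum_congr rfl
  intro h _
  apply Finset.sum_congr rfl
  intro h' _
  congr 2
  ring

theorem Phi_mean_le {Q L : ℕ} (hQ : 0 < Q) (hL0 : 0 < L) (hL : L ≤ Q) :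
    ∑ i ∈ range Q, Phi Q L (i : ℤ) ≤ Q := by
  have h := T_fourier hQ hL0 0
  have hQ' : (Q : ℂ) ≠ 0 := by exact_mod_cast hQ.ne'
  have h2 : ((∑ i ∈ range Q, Phi Q L (i : ℤ) : ℝ) : ℂ) = (Q : ℂ) * ((T Q L 0 : ℝ) : ℂ) := by
    rw [h]
    simp only [zero_mul, E_zero, mul_one]
    push_cast
    field_simp
  have h3 : (∑ i ∈ range Q, Phi Q L (i : ℤ) : ℝ) = (Q : ℝ) * T Q L 0 := by
    exact_mod_cast h2
  rw [h3]
  have := T_le_one hQ hL0 hL 0
  have hQr : (0 : ℝ) ≤ Q := by positivity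
  nlinarith

/-- Geometric bound for the Dirichlet kernel. -/
theorem norm_Dir_mul_le (Q L : ℕ) (i : ℤ) : ‖Dir Q L i‖ * ‖E Q i - 1‖ ≤ 2 := by
  have h1 : Dir Q L i * (E Q i - 1) = E Q i ^ L - 1 := by
    unfold Dir
    have : ∀ h : ℕ, E Q ((h : ℤ) * i) = E Q i ^ h := by
      intro h
      rw [mul_comm, E_mul_nat]
    simp only [this]
    exact geom_sum_mul _ _
  rw [← norm_mul, h1]
  calc ‖E Q i ^ L - 1‖ ≤ ‖E Q i ^ L‖ + ‖(1 : ℂ)‖ := norm_sub_le _ _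
    _ = 2 := by
      rw [norm_pow, norm_E]
      norm_num

/-- Jordan type lower bound for the chord. -/
theorem chord_lower {Q : ℕ} (hQ : 0 < Q) {i : ℕ} (h2 : 2 * i ≤ Q) :
    4 * (i : ℝ) / Q ≤ ‖E Q i - 1‖ := by
  have hQr : (0 : ℝ) < Q := by exact_mod_cast hQ
  have hE : E Q i = Complex.exp (Complex.I * ((2 * Real.pi * i / Q : ℝ) : ℂ)) := by
    rw [E_eq_exp_real]
    congr 1
    push_cast
    ring
  rw [hE, Complex.norm_exp_I_mul_ofReal_sub_one]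
  have hx : (2 * Real.pi * i / Q : ℝ) / 2 = Real.pi * i / Q := by ring
  rw [hx]
  have hipos : (0 : ℝ) ≤ i := by positivity
  have h2' : 2 * (i : ℝ) ≤ Q := by exact_mod_cast h2
  have hx0 : 0 ≤ Real.pi * i / Q := by positivity
  have hx1 : Real.pi * i / Q ≤ Real.pi / 2 := by
    rw [div_le_div_iff₀ hQr (by norm_num)]
    nlinarith [Real.pi_pos]
  have hs := Real.mul_le_sin hx0 hx1
  have hs2 : 2 * (i : ℝ) / Q ≤ Real.sin (Real.pi * i / Q) := by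
    have : 2 / Real.pi * (Real.pi * i / Q) = 2 * (i : ℝ) / Q := by
      field_simp
    linarith
  rw [Real.norm_eq_abs, abs_mul, abs_of_pos (by norm_num : (0 : ℝ) < 2)]
  have h3 : 2 * (2 * (i : ℝ) / Q) ≤ 2 * |Real.sin (Real.pi * i / Q)| := by
    have := le_abs_self (Real.sin (Real.pi * i / Q))
    linarith
  calc 4 * (i : ℝ) / Q = 2 * (2 * (i : ℝ) / Q) := by ring
    _ ≤ _ := h3

/-- The chord bound near the other end of the period. -/
theorem chord_lower' {Q : ℕ} (hQ : 0 < Q) {i : ℕ} (hi : i < Q) (h2 : Q ≤ 2 * i) :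
    4 * ((Q : ℝ) - i) / Q ≤ ‖E Q i - 1‖ := by
  have hQr : (0 : ℝ) < Q := by exact_mod_cast hQ
  have hE : E Q i = Complex.exp (Complex.I * ((2 * Real.pi * i / Q : ℝ) : ℂ)) := by
    rw [E_eq_exp_real]
    congr 1
    push_cast
    ring
  rw [hE, Complex.norm_exp_I_mul_ofReal_sub_one]
  have hx : (2 * Real.pi * i / Q : ℝ) / 2 = Real.pi * i / Q := by ring
  rw [hx]
  have hi' : (i : ℝ) < Q := by exact_mod_cast hi
  have h2' : (Q : ℝ) ≤ 2 * i := by exact_mod_cast h2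
  have hsin : Real.sin (Real.pi * i / Q) = Real.sin (Real.pi * ((Q : ℝ) - i) / Q) := by
    rw [← Real.sin_pi_sub]
    congr 1
    field_simp
  rw [hsin]
  have hx0 : 0 ≤ Real.pi * ((Q : ℝ) - i) / Q := by
    apply div_nonneg _ hQr.le
    apply mul_nonneg Real.pi_pos.le
    linarith
  have hx1 : Real.pi * ((Q : ℝ) - i) / Q ≤ Real.pi / 2 := by
    rw [div_le_div_iff₀ hQr (by norm_num)]
    nlinarith [Real.pi_pos]
  have hs := Real.mul_le_sin hx0 hx1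
  have hs2 : 2 * ((Q : ℝ) - i) / Q ≤ Real.sin (Real.pi * ((Q : ℝ) - i) / Q) := by
    have : 2 / Real.pi * (Real.pi * ((Q : ℝ) - i) / Q) = 2 * ((Q : ℝ) - i) / Q := by
      field_simp
    linarith
  rw [Real.norm_eq_abs, abs_mul, abs_of_pos (by norm_num : (0 : ℝ) < 2)]
  have h3 : 2 * (2 * ((Q : ℝ) - i) / Q) ≤ 2 * |Real.sin (Real.pi * ((Q : ℝ) - i) / Q)| := by
    have := le_abs_self (Real.sin (Real.pi * ((Q : ℝ) - i) / Q))
    linarith
  calc 4 * ((Q : ℝ) - i) / Q = 2 * (2 * ((Q : ℝ) - i) / Q) := by ring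
    _ ≤ _ := h3

/-- Pointwise decay of the Fejer kernel. -/
theorem Phi_le {Q L : ℕ} (hQ : 0 < Q) (hL0 : 0 < L) {i : ℕ} (hi0 : 0 < i) (hi : i < Q) :
    Phi Q L (i : ℤ) ≤
      ((Q : ℝ) ^ 2 / (4 * L)) * (((i : ℝ) ^ 2)⁻¹ + ((((Q - i : ℕ) : ℝ)) ^ 2)⁻¹) := by
  have hQr : (0 : ℝ) < Q := by exact_mod_cast hQ
  have hLr : (0 : ℝ) < L := by exact_mod_cast hL0
  have hir : (0 : ℝ) < i := by exact_mod_cast hi0
  have hcast : ((Q - i : ℕ) : ℝ) = (Q : ℝ) - i := by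
    rw [Nat.cast_sub hi.le]
  have hQi : (0 : ℝ) < (Q : ℝ) - i := by
    have : (i : ℝ) < Q := by exact_mod_cast hi
    linarith
  have hD := norm_Dir_mul_le Q L (i : ℤ)
  have hDnn : 0 ≤ ‖Dir Q L (i : ℤ)‖ := norm_nonneg _
  rw [hcast]
  unfold Phi
  have hp1 : 0 ≤ ((i : ℝ) ^ 2)⁻¹ := by positivity
  have hp2 : 0 ≤ (((Q : ℝ) - i) ^ 2)⁻¹ := by positivity
  rcases le_total (2 * i) Q with h2 | h2
  · have hc := chord_lower hQ h2
    have hc' : ‖Dir Q L (i : ℤ)‖ * (4 * (i : ℝ) / Q) ≤ 2 :=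
      le_trans (mul_le_mul_of_nonneg_left hc hDnn) hD
    have hb : ‖Dir Q L (i : ℤ)‖ ≤ (Q : ℝ) / (2 * i) := by
      rw [le_div_iff₀ (by positivity)]
      have : ‖Dir Q L (i : ℤ)‖ * (4 * (i : ℝ) / Q) * Q = ‖Dir Q L (i : ℤ)‖ * (4 * i) := by
        field_simp
      have h3 : ‖Dir Q L (i : ℤ)‖ * (4 * (i : ℝ) / Q) * Q ≤ 2 * Q :=
        mul_le_mul_of_nonneg_right hc' hQr.le
      nlinarith
    have hsq : ‖Dir Q L (i : ℤ)‖ ^ 2 ≤ ((Q : ℝ) / (2 * i)) ^ 2 :=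
      pow_le_pow_left₀ hDnn hb 2
    calc ‖Dir Q L (i : ℤ)‖ ^ 2 / (L : ℝ) ≤ ((Q : ℝ) / (2 * i)) ^ 2 / L :=
          div_le_div_of_nonneg_right hsq hLr.le
      _ = ((Q : ℝ) ^ 2 / (4 * L)) * ((i : ℝ) ^ 2)⁻¹ := by
          field_simp
          ring
      _ ≤ _ := by
          apply mul_le_mul_of_nonneg_left _ (by positivity)
          linarith
  · have hc := chord_lower' hQ hi h2
    have hc' : ‖Dir Q L (i : ℤ)‖ * (4 * ((Q : ℝ) - i) / Q) ≤ 2 :=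
      le_trans (mul_le_mul_of_nonneg_left hc hDnn) hD
    have hb : ‖Dir Q L (i : ℤ)‖ ≤ (Q : ℝ) / (2 * ((Q : ℝ) - i)) := by
      rw [le_div_iff₀ (by positivity)]
      have : ‖Dir Q L (i : ℤ)‖ * (4 * ((Q : ℝ) - i) / Q) * Q
          = ‖Dir Q L (i : ℤ)‖ * (4 * ((Q : ℝ) - i)) := by
        field_simp
      have h3 : ‖Dir Q L (i : ℤ)‖ * (4 * ((Q : ℝ) - i) / Q) * Q ≤ 2 * Q :=
        mul_le_mul_of_nonneg_right hc' hQr.le
      nlinarith
    have hsq : ‖Dir Q L (i : ℤ)‖ ^ 2 ≤ ((Q : ℝ) / (2 * ((Q : ℝ) - i))) ^ 2 :=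
      pow_le_pow_left₀ hDnn hb 2
    calc ‖Dir Q L (i : ℤ)‖ ^ 2 / (L : ℝ) ≤ ((Q : ℝ) / (2 * ((Q : ℝ) - i))) ^ 2 / L :=
          div_le_div_of_nonneg_right hsq hLr.le
      _ = ((Q : ℝ) ^ 2 / (4 * L)) * (((Q : ℝ) - i) ^ 2)⁻¹ := by
          field_simp
          ring
      _ ≤ _ := by
          apply mul_le_mul_of_nonneg_left _ (by positivity)
          linarith

/-- The tail of the Fejer kernel. -/
theorem Phi_tail {Q L : ℕ} (hQ : 0 < Q) (hL0 : 0 < L) (l0 : ℕ) :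
    ∑ i ∈ Ioo l0 (Q - l0), Phi Q L (i : ℤ) ≤ ((Q : ℝ) ^ 2 / L) / (l0 + 1) := by
  have hQr : (0 : ℝ) < Q := by exact_mod_cast hQ
  have hLr : (0 : ℝ) < L := by exact_mod_cast hL0
  have h1 : ∑ i ∈ Ioo l0 (Q - l0), Phi Q L (i : ℤ) ≤
      ∑ i ∈ Ioo l0 (Q - l0),
        ((Q : ℝ) ^ 2 / (4 * L)) * (((i : ℝ) ^ 2)⁻¹ + ((((Q - i : ℕ) : ℝ)) ^ 2)⁻¹) := by
    apply Finset.sum_le_sum
    intro i hi
    rw [mem_Ioo] at hi
    exact Phi_le hQ hL0 (by omega) (by omega)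
  refine h1.trans ?_
  rw [← Finset.mul_sum, Finset.sum_add_distrib]
  have h2 : ∑ i ∈ Ioo l0 (Q - l0), ((i : ℝ) ^ 2)⁻¹ ≤ 2 / ((l0 : ℝ) + 1) :=
    sum_Ioo_inv_sq_le l0 (Q - l0)
  have h3 : ∑ i ∈ Ioo l0 (Q - l0), (((Q - i : ℕ) : ℝ) ^ 2)⁻¹ =
      ∑ i ∈ Ioo l0 (Q - l0), ((i : ℝ) ^ 2)⁻¹ := by
    apply Finset.sum_nbij' (fun i => Q - i) (fun i => Q - i)
    · intro i hi
      rw [mem_Ioo] at hi ⊢
      omega
    · intro i hi
      rw [mem_Ioo] at hi ⊢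
      omega
    · intro i hi
      rw [mem_Ioo] at hi
      omega
    · intro i hi
      rw [mem_Ioo] at hi
      omega
    · intro i _
      rfl
  rw [h3]
  have hl : (0 : ℝ) < (l0 : ℝ) + 1 := by positivity
  calc (Q : ℝ) ^ 2 / (4 * L) *
        (∑ i ∈ Ioo l0 (Q - l0), ((i : ℝ) ^ 2)⁻¹ + ∑ i ∈ Ioo l0 (Q - l0), ((i : ℝ) ^ 2)⁻¹)
      ≤ (Q : ℝ) ^ 2 / (4 * L) * (2 / ((l0 : ℝ) + 1) + 2 / ((l0 : ℝ) + 1)) := by
        apply mul_le_mul_of_nonneg_left _ (by positivity)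
        linarith
    _ = ((Q : ℝ) ^ 2 / L) / (l0 + 1) := by
        field_simp
        ring

end Vale.Agent.Lib.P110
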